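import Vale.Agent.P134.H586.Gw
import Mathlib.Analysis.Calculus.ContDiff.Convolution

set_option linter.all false

/-! P134, R3: smooth cut-off around an arbitrary set of bad points. -/

namespace Vale.Agent.P134.H586

open Vale.Agent.P134 Vale.Agent.P134.SM Vale.Agent.P134.LI MeasureTheory Filter Topology
open scoped Convolution

/-! ### Euclidean norm -/

lemma eno_eq_dsq (x y : R3) : eno (x - y) = Real.sqrt (dsq y x) := rfl

lemma eno_comm (x y : R3) : eno (x - y) = eno (y - x) := by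
  rw [eno_eq_dsq, eno_eq_dsq, dsq_comm]

lemma eno_tri (x y z : R3) : eno (x - z) ≤ eno (x - y) + eno (y - z) := by
  have h := sqrt_dsq_triangle z y x
  rw [← eno_eq_dsq, ← eno_eq_dsq, ← eno_eq_dsq] at h
  linarith

/-! ### Convolution -/

section conv

variable {f g : R3 → ℝ} {x : R3} {R M : ℝ}

noncomputable def cvl (f g : R3 → ℝ) : R3 → ℝ := f ⋆[ContinuousLinearMap.mul ℝ ℝ, volume] g

lemma cvl_apply (f g : R3 → ℝ) (x : R3) : cvl f g x = ∫ z, f z * g (x - z) := rfl

lemma cvl_cd {k : ℕ∞} (hf : LocallyIntegrable f) (hc : HasCompactSupport g)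
    (hg : ContDiff ℝ k g) : ContDiff ℝ k (cvl f g) :=
  hc.contDiff_convolution_right _ hf hg

lemma pd_cvl (hf : LocallyIntegrable f) (hc : HasCompactSupport g)
    (hg : ContDiff ℝ 1 g) (i : Fin 3) : pd i (cvl f g) = cvl f (pd i g) := by
  funext x
  have h := hc.hasFDerivAt_convolution_right (ContinuousLinearMap.mul ℝ ℝ) hf hg x
  unfold pd cvl
  rw [h.fderiv, convolution_precompR_apply _ hf (hc.fderiv ℝ)
    (hg.continuous_fderiv (by norm_num))]

lemma abs_cvl_le (hf : ∀ z, |f z| ≤ 1) (hg : ∀ z, |g z| ≤ M) (hR : 0 ≤ R)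
    (hs : ∀ z, z ∉ eb 0 R → g z = 0) : |cvl f g x| ≤ M * (SM.vb 3 * R ^ 3) := by
  have hM : 0 ≤ M := (abs_nonneg _).trans (hg 0)
  rw [cvl_apply]
  have h1 : ∀ z, ‖f z * g (x - z)‖ ≤ (eb x R).indicator (fun _ => M) z := by
    intro z
    by_cases hz : z ∈ eb x R
    · rw [Set.indicator_of_mem hz, norm_mul]
      calc ‖f z‖ * ‖g (x - z)‖ ≤ 1 * M :=
            mul_le_mul (hf z) (hg _) (norm_nonneg _) zero_le_one
        _ = M := one_mul M
    · have : x - z ∉ eb 0 R := by
        intro h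
        apply hz
        rw [mem_eb] at h ⊢
        have e : dsq 0 (x - z) = dsq x z := by
          unfold dsq
          exact Finset.sum_congr rfl fun i _ => by simp only [Pi.sub_apply, Pi.zero_apply]; ring
        rwa [e] at h
      rw [hs _ this, mul_zero, norm_zero]
      exact Set.indicator_nonneg (fun _ _ => hM) _
  have hi : Integrable ((eb x R).indicator fun _ => M) :=
    (integrable_indicator_iff (measurableSet_eb x R)).mpr
      (integrableOn_const (volume_eb_lt_top x R).ne)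
  have h2 := norm_integral_le_of_norm_le hi (Eventually.of_forall h1)
  rw [integral_indicator (measurableSet_eb x R), setIntegral_const, smul_eq_mul] at h2
  have h3 : volume.real (eb x R) = SM.vb 3 * R ^ 3 := volume_eb x hR
  rw [h3] at h2
  rw [← Real.norm_eq_abs]
  linarith

end conv

/-! ### The mollified indicator -/

/-- indicator function -/
noncomputable def ind (S : Set R3) : R3 → ℝ := S.indicator fun _ => 1

lemma ind_abs (S : Set R3) (z : R3) : |ind S z| ≤ 1 := by
  unfold ind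
  by_cases h : z ∈ S
  · rw [Set.indicator_of_mem h]; simp
  · rw [Set.indicator_of_notMem h]; simp

lemma ind_nonneg (S : Set R3) (z : R3) : 0 ≤ ind S z :=
  Set.indicator_nonneg (fun _ _ => zero_le_one) _

lemma ind_li {S : Set R3} (hS : MeasurableSet S) : LocallyIntegrable (ind S) := by
  unfold ind
  exact (locallyIntegrable_const (1:ℝ)).indicator hS

noncomputable def mas (R : ℝ) : ℝ := ∫ z : R3, rc 0 R z

lemma rc_integrable {R : ℝ} (hR : 0 < R) : Integrable (rc (0 : R3) R) :=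
  (rc_continuous 0 R).integrable_of_hasCompactSupport (rc_hasCompactSupport hR)

lemma mas_ge {R : ℝ} (hR : 0 < R) : SM.vb 3 * R ^ 3 ≤ mas R := by
  have h1 : ∀ z : R3, (eb (0:R3) R).indicator (fun _ => (1:ℝ)) z ≤ rc 0 R z := by
    intro z
    by_cases hz : z ∈ eb (0:R3) R
    · rw [Set.indicator_of_mem hz, rc_one hR hz]
    · rw [Set.indicator_of_notMem hz]; exact rc_nonneg _ _ _
  have hi : Integrable ((eb (0:R3) R).indicator fun _ => (1:ℝ)) :=
    (integrable_indicator_iff (measurableSet_eb _ R)).mpr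
      (integrableOn_const (volume_eb_lt_top _ R).ne)
  have h2 := integral_mono hi (rc_integrable hR) h1
  rw [integral_indicator (measurableSet_eb _ R), setIntegral_const, smul_eq_mul, mul_one] at h2
  have h3 : volume.real (eb (0:R3) R) = SM.vb 3 * R ^ 3 := volume_eb 0 hR.le
  rw [h3] at h2
  exact h2

lemma mas_pos {R : ℝ} (hR : 0 < R) : 0 < mas R :=
  lt_of_lt_of_le (mul_pos (SM.vb_pos 3) (by positivity)) (mas_ge hR)

noncomputable def mol (S : Set R3) (R : ℝ) : R3 → ℝ := fun x => (mas R)⁻¹ * cvl (ind S) (rc 0 R) x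

lemma mol_cd {S : Set R3} (hS : MeasurableSet S) {R : ℝ} (hR : 0 < R) {k : ℕ∞} :
    ContDiff ℝ k (mol S R) :=
  contDiff_const.mul (cvl_cd (ind_li hS) (rc_hasCompactSupport hR) (rc_contDiff 0 R))

lemma pd_mol {S : Set R3} (hS : MeasurableSet S) {R : ℝ} (hR : 0 < R) (i : Fin 3) (x : R3) :
    pd i (mol S R) x = (mas R)⁻¹ * cvl (ind S) (pd i (rc 0 R)) x := by
  have hc := rc_hasCompactSupport (y := (0:R3)) hR
  have hg : ContDiff ℝ 1 (rc (0:R3) R) := by exact_mod_cast rc_contDiff (0:R3) R (k := 1)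
  have h1 : ContDiff ℝ 1 (cvl (ind S) (rc 0 R)) := by exact_mod_cast cvl_cd (k := 1) (ind_li hS) hc hg
  unfold mol
  rw [pd_mul (f := fun _ => (mas R)⁻¹) (by fun_prop) (h1.differentiable (by norm_num) x), pd_const,
    pd_cvl (ind_li hS) hc hg]
  ring

lemma pd_pd_mol {S : Set R3} (hS : MeasurableSet S) {R : ℝ} (hR : 0 < R) (i j : Fin 3) (x : R3) :
    pd j (pd i (mol S R)) x = (mas R)⁻¹ * cvl (ind S) (pd j (pd i (rc 0 R))) x := by
  have hc := rc_hasCompactSupport (y := (0:R3)) hR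
  have hg2 : ContDiff ℝ 2 (rc (0:R3) R) := by exact_mod_cast rc_contDiff (0:R3) R (k := 2)
  have hg : ContDiff ℝ 1 (pd i (rc (0:R3) R)) := contDiff_pd_one hg2
  have hcp : HasCompactSupport (pd i (rc (0:R3) R)) := hasCompactSupport_pd hc
  have h1 : ContDiff ℝ 1 (cvl (ind S) (pd i (rc 0 R))) := by
    exact_mod_cast cvl_cd (k := 1) (ind_li hS) hcp hg
  have e : pd i (mol S R) = fun y => (mas R)⁻¹ * cvl (ind S) (pd i (rc 0 R)) y := by
    funext y; exact pd_mol hS hR i y
  rw [e, pd_mul (f := fun _ => (mas R)⁻¹) (by fun_prop) (h1.differentiable (by norm_num) x),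
    pd_const, pd_cvl (ind_li hS) hcp hg]
  ring

lemma cvl_integrand_integrable {S : Set R3} (hS : MeasurableSet S) {R : ℝ} (hR : 0 < R) (x : R3) :
    Integrable fun z => ind S z * rc 0 R (x - z) := by
  have h1 : Integrable fun z => rc (0:R3) R (x - z) := (rc_integrable hR).comp_sub_left x
  have e : (fun z => ind S z * rc 0 R (x - z)) = S.indicator fun z => rc 0 R (x - z) := by
    funext z
    unfold ind
    by_cases h : z ∈ S
    · rw [Set.indicator_of_mem h, Set.indicator_of_mem h, one_mul]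
    · rw [Set.indicator_of_notMem h, Set.indicator_of_notMem h, zero_mul]
  rw [e]
  exact h1.indicator hS

lemma mol_nonneg {S : Set R3} {R : ℝ} (hR : 0 < R) (x : R3) : 0 ≤ mol S R x := by
  unfold mol
  refine mul_nonneg (inv_nonneg.mpr (mas_pos hR).le) ?_
  rw [cvl_apply]
  exact integral_nonneg fun z => mul_nonneg (ind_nonneg S z) (rc_nonneg _ _ _)

lemma int_rc_sub {R : ℝ} (x : R3) : ∫ z, rc (0:R3) R (x - z) = mas R :=
  integral_sub_left_eq_self (fun z => rc (0:R3) R z) volume x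

lemma mol_le_one {S : Set R3} (hS : MeasurableSet S) {R : ℝ} (hR : 0 < R) (x : R3) :
    mol S R x ≤ 1 := by
  have h := mas_pos hR
  unfold mol
  rw [inv_mul_le_iff₀ h, mul_one, cvl_apply, ← int_rc_sub x]
  refine integral_mono (cvl_integrand_integrable hS hR x) ((rc_integrable hR).comp_sub_left x) ?_
  intro z
  have h1 := (abs_le.mp (ind_abs S z)).2
  have h2 := rc_nonneg (0:R3) R (x - z)
  show ind S z * rc 0 R (x - z) ≤ rc 0 R (x - z)
  nlinarith

lemma mol_zero {S : Set R3} {R : ℝ} (hR : 0 < R) {x : R3}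
    (h : ∀ z, eno (x - z) ≤ 2 * R → z ∉ S) : mol S R x = 0 := by
  unfold mol
  rw [cvl_apply]
  have e : (fun z => ind S z * rc (0:R3) R (x - z)) = fun _ => 0 := by
    funext z
    by_cases hz : x - z ∈ eb (0:R3) (2 * R)
    · have h1 : eno (x - z) ≤ 2 * R := by
        have := (mem_eb_sqrt (by positivity)).mp hz
        rw [← eno_eq_dsq, sub_zero] at this
        exact this
      unfold ind
      rw [Set.indicator_of_notMem (h z h1), zero_mul]
    · rw [rc_zero hR hz, mul_zero]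
  rw [e]; simp

lemma mol_one {S : Set R3} {R : ℝ} (hR : 0 < R) {x : R3}
    (h : ∀ z, eno (x - z) ≤ 2 * R → z ∈ S) : mol S R x = 1 := by
  unfold mol
  rw [cvl_apply]
  have e : (fun z => ind S z * rc (0:R3) R (x - z)) = fun z => rc 0 R (x - z) := by
    funext z
    by_cases hz : x - z ∈ eb (0:R3) (2 * R)
    · have h1 : eno (x - z) ≤ 2 * R := by
        have := (mem_eb_sqrt (by positivity)).mp hz
        rw [← eno_eq_dsq, sub_zero] at this
        exact this
      unfold ind
      rw [Set.indicator_of_mem (h z h1), one_mul]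
    · rw [rc_zero hR hz, mul_zero]
  rw [e, int_rc_sub]
  exact inv_mul_cancel₀ (mas_pos hR).ne'

theorem exists_mol_bound : ∃ C : ℝ, 1 ≤ C ∧ ∀ (S : Set R3), MeasurableSet S → ∀ R : ℝ, 0 < R →
    ∀ x : R3, (∀ i, |pd i (mol S R) x| ≤ C / R) ∧
      (∀ i j, |pd j (pd i (mol S R)) x| ≤ C / R ^ 2) := by
  obtain ⟨C, hC1, hC⟩ := exists_rc_bound 3
  refine ⟨8 * C, by linarith, ?_⟩
  intro S hS R hR x
  have hv := SM.vb_pos 3
  have hm := mas_pos hR
  have hm2 := mas_ge hR
  have key : ∀ (g : R3 → ℝ) (M : ℝ), (∀ z, |g z| ≤ M) → (∀ z, z ∉ eb (0:R3) (2 * R) → g z = 0) →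
      |(mas R)⁻¹ * cvl (ind S) g x| ≤ 8 * M := by
    intro g M hg hs
    have hM : 0 ≤ M := (abs_nonneg _).trans (hg 0)
    have h1 := abs_cvl_le (x := x) (ind_abs S) hg (by positivity : 0 ≤ 2 * R) hs
    rw [abs_mul, abs_of_pos (inv_pos.mpr hm), inv_mul_le_iff₀ hm]
    refine h1.trans ?_
    have h2 : M * (SM.vb 3 * (2 * R) ^ 3) = 8 * M * (SM.vb 3 * R ^ 3) := by ring
    rw [h2, mul_comm (mas R)]
    exact mul_le_mul_of_nonneg_left hm2 (by positivity)
  constructor
  · intro i
    rw [pd_mol hS hR]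
    refine (key _ (C / R) (fun z => (hC 0 R z hR).1 i) (fun z hz => pd_rc_zero hR hz)).trans ?_
    rw [← mul_div_assoc]
  · intro i j
    rw [pd_pd_mol hS hR]
    refine (key _ (C / R ^ 2) (fun z => (hC 0 R z hR).2.2.1 i j) (fun z hz => ?_)).trans ?_
    · apply pd_eq_zero_of_notMem_tsupport
      intro h
      exact hz (rc_tsupport hR (tsupport_pd_subset _ i h))
    · rw [← mul_div_assoc]

/-! ### The cut-off -/

lemma measurableSet_Far (B : Set R3) (r : ℝ) : MeasurableSet {x | Far B r x} := by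
  have : IsClosed {x | Far B r x} := by
    have e : {x | Far B r x} = ⋂ b ∈ B, {x | r ≤ eno (x - b)} := by
      ext x; simp [Far]
    rw [e]
    exact isClosed_biInter fun b _ =>
      isClosed_le continuous_const (continuous_eno.comp (continuous_id.sub continuous_const))
  exact this.measurableSet

/-- `S(h) = 3h² - 2h³`. -/
noncomputable def smst (t : ℝ) : ℝ := 3 * t ^ 2 - 2 * t ^ 3

/-- The cut-off: `0` for `d < W`, `1` for `d ≥ 2W`. -/
noncomputable def chiB (B : Set R3) (W : ℝ) (x : R3) : ℝ :=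
  smst (mol {y | Far B (3 * W / 2) y} (W / 8) x)

lemma chiB_cd (B : Set R3) {W : ℝ} (hW : 0 < W) {k : ℕ∞} : ContDiff ℝ k (chiB B W) := by
  have h := mol_cd (measurableSet_Far B (3 * W / 2)) (show 0 < W / 8 by positivity) (k := k)
  unfold chiB smst
  exact (contDiff_const.mul (h.pow 2)).sub (contDiff_const.mul (h.pow 3))

lemma chiB_nonneg (B : Set R3) {W : ℝ} (hW : 0 < W) (x : R3) : 0 ≤ chiB B W x := by
  have h0 := mol_nonneg (S := {y | Far B (3 * W / 2) y}) (show 0 < W / 8 by positivity) x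
  have h1 := mol_le_one (measurableSet_Far B (3 * W / 2)) (show 0 < W / 8 by positivity) x
  unfold chiB smst
  nlinarith [sq_nonneg (mol {y | Far B (3 * W / 2) y} (W / 8) x)]

lemma chiB_le_one (B : Set R3) {W : ℝ} (hW : 0 < W) (x : R3) : chiB B W x ≤ 1 := by
  have h0 := mol_nonneg (S := {y | Far B (3 * W / 2) y}) (show 0 < W / 8 by positivity) x
  have h1 := mol_le_one (measurableSet_Far B (3 * W / 2)) (show 0 < W / 8 by positivity) x
  unfold chiB smst
  set t := mol {y | Far B (3 * W / 2) y} (W / 8) x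
  nlinarith [mul_nonneg (sq_nonneg (1 - t)) (show 0 ≤ 1 + 2 * t by linarith)]

lemma chiB_zero' (B : Set R3) {W : ℝ} (hW : 0 < W) {x : R3} (h : ¬ Far B (5 / 4 * W) x) :
    chiB B W x = 0 := by
  have : mol {y | Far B (3 * W / 2) y} (W / 8) x = 0 := by
    apply mol_zero (by positivity)
    intro z hz hz2
    apply h
    intro b hb
    have h1 := hz2 b hb
    have h2 := eno_tri z x b
    rw [eno_comm z x] at h2
    linarith
  unfold chiB smst
  rw [this]; norm_num

lemma chiB_zero (B : Set R3) {W : ℝ} (hW : 0 < W) {x : R3} (h : ¬ Far B W x) :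
    chiB B W x = 0 :=
  chiB_zero' B hW fun h2 => h fun b hb => by have := h2 b hb; linarith

lemma chiB_one' (B : Set R3) {W : ℝ} (hW : 0 < W) {x : R3} (h : Far B (7 / 4 * W) x) :
    chiB B W x = 1 := by
  have : mol {y | Far B (3 * W / 2) y} (W / 8) x = 1 := by
    apply mol_one (by positivity)
    intro z hz b hb
    have h1 := h b hb
    have h2 := eno_tri x z b
    linarith
  unfold chiB smst
  rw [this]; norm_num

lemma chiB_one (B : Set R3) {W : ℝ} (hW : 0 < W) {x : R3} (h : Far B (2 * W) x) :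
    chiB B W x = 1 :=
  chiB_one' B hW fun b hb => by have := h b hb; linarith

lemma pd_chiB (B : Set R3) {W : ℝ} (hW : 0 < W) (i : Fin 3) (x : R3) :
    pd i (chiB B W) x = 6 * (mol {y | Far B (3 * W / 2) y} (W / 8) x
      * (1 - mol {y | Far B (3 * W / 2) y} (W / 8) x))
      * pd i (mol {y | Far B (3 * W / 2) y} (W / 8)) x := by
  have hm := mol_cd (measurableSet_Far B (3 * W / 2)) (show 0 < W / 8 by positivity) (k := 1)
  have hd : DifferentiableAt ℝ (mol {y | Far B (3 * W / 2) y} (W / 8)) x :=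
    hm.differentiable (by norm_num) x
  have hs : DifferentiableAt ℝ smst (mol {y | Far B (3 * W / 2) y} (W / 8) x) := by
    unfold smst; fun_prop
  unfold chiB
  rw [pd_comp hs hd]
  congr 1
  unfold smst
  have h1 : HasDerivAt (fun t : ℝ => 3 * t ^ 2 - 2 * t ^ 3)
      (3 * (2 * (mol {y | Far B (3 * W / 2) y} (W / 8) x))
        - 2 * (3 * (mol {y | Far B (3 * W / 2) y} (W / 8) x) ^ 2))
      (mol {y | Far B (3 * W / 2) y} (W / 8) x) := by
    have a := (hasDerivAt_pow 2 (mol {y | Far B (3 * W / 2) y} (W / 8) x)).const_mul 3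
    have b := (hasDerivAt_pow 3 (mol {y | Far B (3 * W / 2) y} (W / 8) x)).const_mul 2
    have h : HasDerivAt (fun t : ℝ => 3 * t ^ 2 - 2 * t ^ 3) _ _ := a.sub b
    convert h using 1
    norm_num
  rw [h1.deriv]; ring

/-- **CHI**: cut-off around an arbitrary set. -/
theorem exists_chiB_bound : ∃ C : ℝ, 1 ≤ C ∧ ∀ (B : Set R3) (W : ℝ), 0 < W → ∀ x : R3,
    gs (chiB B W) x ≤ C / W ^ 2 * (chiB B W x * (1 - chiB B W x)) ∧
    gs (chiB B W) x ≤ C / W ^ 2 ∧ (∀ i, |pd i (chiB B W) x| ≤ C / W) ∧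
    (∀ i j, |pd j (pd i (chiB B W)) x| ≤ C / W ^ 2) ∧ |lap (chiB B W) x| ≤ C / W ^ 2 ∧
    wn (chiB B W) x ≤ C / W := by
  obtain ⟨C, hC1, hC⟩ := exists_mol_bound
  have hC0 : 0 < C := by linarith
  refine ⟨100000 * C ^ 2, by nlinarith, ?_⟩
  intro B W hW x
  have hR : 0 < W / 8 := by positivity
  have hS := measurableSet_Far B (3 * W / 2)
  have b1 := fun y => (hC _ hS (W / 8) hR y).1
  have b2 := fun y => (hC _ hS (W / 8) hR y).2
  set m := mol {y | Far B (3 * W / 2) y} (W / 8) with hm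
  have m0 : ∀ y, 0 ≤ m y := fun y => mol_nonneg hR y
  have m1 : ∀ y, m y ≤ 1 := fun y => mol_le_one hS hR y
  have hcd : ContDiff ℝ 2 m := by exact_mod_cast mol_cd hS hR (k := 2)
  have hmd : Differentiable ℝ m := hcd.differentiable (by norm_num)
  have e1 : ∀ i, pd i (chiB B W) = fun y => 6 * (m y * (1 - m y)) * pd i m y := by
    intro i; funext y; exact pd_chiB B hW i y
  have c8 : C / (W / 8) = 8 * C / W := by field_simp
  have c64 : C / (W / 8) ^ 2 = 64 * C / W ^ 2 := by field_simp; ring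
  rw [c8] at b1
  rw [c64] at b2
  -- gradient
  have hx0 := m0 x
  have hx1 := m1 x
  have hp : 0 ≤ m x * (1 - m x) := mul_nonneg hx0 (by linarith)
  have hp4 : m x * (1 - m x) ≤ 1 / 4 := by nlinarith [sq_nonneg (2 * m x - 1)]
  have hgsm : gs m x ≤ 192 * C ^ 2 / W ^ 2 := by
    unfold gs
    calc ∑ i, pd i m x ^ 2 ≤ ∑ i : Fin 3, (8 * C / W) ^ 2 := by
          refine Finset.sum_le_sum fun i _ => ?_
          exact sq_le_sq' (abs_le.1 (b1 x i)).1 (abs_le.1 (b1 x i)).2
      _ = 192 * C ^ 2 / W ^ 2 := by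
          rw [Finset.sum_const, Finset.card_univ, Fintype.card_fin, nsmul_eq_mul]
          push_cast
          ring
  have hgs : gs (chiB B W) x = 36 * (m x * (1 - m x)) ^ 2 * gs m x := by
    unfold gs
    rw [Finset.mul_sum]
    refine Finset.sum_congr rfl fun i _ => ?_
    rw [e1 i]; ring
  have hcc : (m x * (1 - m x)) ^ 2 ≤ chiB B W x * (1 - chiB B W x) := by
    have hch : chiB B W x = 3 * m x ^ 2 - 2 * m x ^ 3 := rfl
    rw [hch]
    have e : (3 * m x ^ 2 - 2 * m x ^ 3) * (1 - (3 * m x ^ 2 - 2 * m x ^ 3))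
        = (m x * (1 - m x)) ^ 2 * ((3 - 2 * m x) * (1 + 2 * m x)) := by ring
    rw [e]
    have h2 : 1 ≤ (3 - 2 * m x) * (1 + 2 * m x) := by nlinarith
    nlinarith [mul_le_mul_of_nonneg_left h2 (sq_nonneg (m x * (1 - m x)))]
  have hg0 := gs_nonneg m x
  have g1 : gs (chiB B W) x ≤ 100000 * C ^ 2 / W ^ 2 * (chiB B W x * (1 - chiB B W x)) := by
    rw [hgs]
    have hq0 : 0 ≤ (m x * (1 - m x)) ^ 2 := sq_nonneg _
    have hW2 : 0 < C ^ 2 / W ^ 2 := by positivity
    calc 36 * (m x * (1 - m x)) ^ 2 * gs m x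
        ≤ 36 * (m x * (1 - m x)) ^ 2 * (192 * C ^ 2 / W ^ 2) :=
          mul_le_mul_of_nonneg_left hgsm (by positivity)
      _ = 6912 * (C ^ 2 / W ^ 2) * (m x * (1 - m x)) ^ 2 := by ring
      _ ≤ 100000 * (C ^ 2 / W ^ 2) * (chiB B W x * (1 - chiB B W x)) := by
          apply mul_le_mul _ hcc hq0 (by positivity)
          nlinarith
      _ = _ := by ring
  have hchi0 := chiB_nonneg B hW x
  have hchi1 := chiB_le_one B hW x
  have g2 : gs (chiB B W) x ≤ 100000 * C ^ 2 / W ^ 2 := by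
    refine g1.trans ?_
    have h3 : chiB B W x * (1 - chiB B W x) ≤ 1 := by nlinarith
    have h4 : 0 ≤ 100000 * C ^ 2 / W ^ 2 := by positivity
    nlinarith [mul_le_mul_of_nonneg_left h3 h4]
  have g3 : ∀ i, |pd i (chiB B W) x| ≤ 12 * C / W := by
    intro i
    rw [e1 i]
    simp only
    rw [abs_mul, abs_mul, abs_of_nonneg hp, abs_of_pos (by norm_num : (0:ℝ) < 6)]
    calc 6 * (m x * (1 - m x)) * |pd i m x| ≤ 6 * (1 / 4) * (8 * C / W) :=
          mul_le_mul (by linarith) (b1 x i) (abs_nonneg _) (by norm_num)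
      _ = 12 * C / W := by ring
  have g4 : ∀ i j, |pd j (pd i (chiB B W)) x| ≤ 1000 * C ^ 2 / W ^ 2 := by
    intro i j
    have hpi : DifferentiableAt ℝ (pd i m) x := (contDiff_pd_one hcd).differentiable (by norm_num) x
    have e2 : pd j (pd i (chiB B W)) x
        = 6 * (m x * (1 - m x)) * pd j (pd i m) x + 6 * (1 - 2 * m x) * (pd i m x * pd j m x) := by
      rw [e1 i, pd_mul (f := fun y => 6 * (m y * (1 - m y))) (by fun_prop) hpi,
        pd_mul (f := fun _ => (6:ℝ)) (g := fun y => m y * (1 - m y)) (by fun_prop) (by fun_prop),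
        pd_mul (g := fun y => 1 - m y) (hmd x) (by fun_prop), pd_const,
        pd_sub (f := fun _ => (1:ℝ)) (by fun_prop) (hmd x), pd_const]
      ring
    rw [e2]
    refine (abs_add_le _ _).trans ?_
    have a1 : |6 * (m x * (1 - m x)) * pd j (pd i m) x| ≤ 96 * C / W ^ 2 := by
      rw [abs_mul, abs_mul, abs_of_nonneg hp, abs_of_pos (by norm_num : (0:ℝ) < 6)]
      calc 6 * (m x * (1 - m x)) * |pd j (pd i m) x| ≤ 6 * (1 / 4) * (64 * C / W ^ 2) :=
            mul_le_mul (by linarith) (b2 x i j) (abs_nonneg _) (by norm_num)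
        _ = 96 * C / W ^ 2 := by ring
    have a2 : |6 * (1 - 2 * m x) * (pd i m x * pd j m x)| ≤ 384 * C ^ 2 / W ^ 2 := by
      rw [abs_mul, abs_mul, abs_mul, abs_of_pos (by norm_num : (0:ℝ) < 6)]
      have h5 : |1 - 2 * m x| ≤ 1 := abs_le.mpr ⟨by linarith, by linarith⟩
      have h6 : |pd i m x| * |pd j m x| ≤ (8 * C / W) * (8 * C / W) :=
        mul_le_mul (b1 x i) (b1 x j) (abs_nonneg _) (by positivity)
      calc 6 * |1 - 2 * m x| * (|pd i m x| * |pd j m x|)
          ≤ 6 * 1 * ((8 * C / W) * (8 * C / W)) :=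
            mul_le_mul (by linarith) h6 (by positivity) (by norm_num)
        _ = 384 * C ^ 2 / W ^ 2 := by ring
    have a3 : 96 * C / W ^ 2 ≤ 96 * C ^ 2 / W ^ 2 := by
      apply div_le_div_of_nonneg_right _ (by positivity)
      nlinarith
    have a4 : 96 * C ^ 2 / W ^ 2 + 384 * C ^ 2 / W ^ 2 ≤ 1000 * C ^ 2 / W ^ 2 := by
      rw [← add_div]
      apply div_le_div_of_nonneg_right _ (by positivity)
      nlinarith
    linarith
  refine ⟨g1, g2, fun i => (g3 i).trans ?_, fun i j => (g4 i j).trans ?_, ?_, ?_⟩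
  · apply div_le_div_of_nonneg_right _ hW.le
    nlinarith
  · apply div_le_div_of_nonneg_right _ (by positivity)
    nlinarith
  · unfold lap
    calc |∑ i, pd i (pd i (chiB B W)) x| ≤ ∑ i, |pd i (pd i (chiB B W)) x| :=
          Finset.abs_sum_le_sum_abs _ _
      _ ≤ ∑ i : Fin 3, 1000 * C ^ 2 / W ^ 2 := Finset.sum_le_sum fun i _ => g4 i i
      _ = 3000 * C ^ 2 / W ^ 2 := by
          rw [Finset.sum_const, Finset.card_univ, Fintype.card_fin, nsmul_eq_mul]
          push_cast; ring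
      _ ≤ _ := by
          apply div_le_div_of_nonneg_right _ (by positivity)
          nlinarith
  · unfold wn
    rw [Real.sqrt_le_left (by positivity)]
    refine g2.trans ?_
    rw [div_pow]
    apply div_le_div_of_nonneg_right _ (by positivity)
    have : 1 ≤ 100000 * C ^ 2 := by nlinarith
    nlinarith

end Vale.Agent.P134.H586
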