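import Vale.Agent.P134.LI.Stm2
import Vale.Agent.P134.H586.Chi
import Mathlib.MeasureTheory.Integral.Pi
import Mathlib.Analysis.SpecialFunctions.ImproperIntegrals

set_option linter.all false

/-! P134, R3: `StGw`, summability and overlap for the exponential weight. -/

namespace Vale.Agent.P134.H586

open Vale.Agent.P134 Vale.Agent.P134.SM Vale.Agent.P134.LI MeasureTheory Filter Topology

variable {lam : ℝ}

lemma int_exp_abs {a : ℝ} (ha : 0 < a) : Integrable (fun y : ℝ => Real.exp (-a * |y|)) := by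
  rw [← integrableOn_univ, ← Set.Iic_union_Ioi (a := (0:ℝ))]
  refine IntegrableOn.union ?_ ?_
  · refine (integrableOn_exp_mul_Iic ha 0).congr_fun (fun y hy => ?_) measurableSet_Iic
    have : |y| = -y := abs_of_nonpos hy
    simp only [this]; ring_nf
  · refine (integrableOn_exp_mul_Ioi (a := -a) (by linarith) 0).congr_fun (fun y hy => ?_)
      measurableSet_Ioi
    have : |y| = y := abs_of_pos hy
    simp only [this]

lemma int_exp_norm {a : ℝ} (ha : 0 < a) : Integrable (fun x : R3 => Real.exp (-a * ‖x‖)) := by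
  have h1 : Integrable (fun x : R3 => ∏ i, Real.exp (-(a / 3) * |x i|)) :=
    Integrable.fintype_prod (f := fun (_ : Fin 3) (y : ℝ) => Real.exp (-(a / 3) * |y|))
      (fun _ => int_exp_abs (by positivity))
  refine h1.mono' (by fun_prop) (Eventually.of_forall fun x => ?_)
  rw [Real.norm_eq_abs, abs_of_pos (Real.exp_pos _), ← Real.exp_sum]
  apply Real.exp_le_exp.mpr
  rw [← Finset.mul_sum]
  have : ∑ i : Fin 3, |x i| ≤ 3 * ‖x‖ := by
    calc ∑ i : Fin 3, |x i| ≤ ∑ i : Fin 3, ‖x‖ := Finset.sum_le_sum fun i _ => norm_le_pi_norm x i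
      _ = 3 * ‖x‖ := by simp
  nlinarith

lemma int_Gw_sq (h : 0 < lam) : Integrable (fun x => Gw lam x ^ 2) := by
  refine (int_exp_norm (a := 2 * lam) (by positivity)).mono'
    ((Gw_continuous lam).pow 2).aestronglyMeasurable (Eventually.of_forall fun x => ?_)
  rw [Real.norm_eq_abs, abs_of_nonneg (sq_nonneg _)]
  have h1 := Gw_le_exp h.le x
  have h2 := (Gw_pos lam x).le
  calc Gw lam x ^ 2 ≤ Real.exp (-lam * ‖x‖) ^ 2 := by gcongr
    _ = Real.exp (-(2 * lam) * ‖x‖) := by rw [← Real.exp_nat_mul]; congr 1; push_cast; ring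

lemma Latt.countable {B : Set R3} (hB : Latt B) : B.Countable := by
  have : B ⊆ Set.range (fun (z : Fin 3 → ℤ) => (fun i => (z i : ℝ) : R3)) := by
    intro b hb
    choose m hm using hB b hb
    exact ⟨m, by funext i; exact (hm i).symm⟩
  exact (Set.countable_range _).mono this

/-- open unit cube around `b`. -/
def cub (b : R3) : Set R3 := Set.pi Set.univ fun i => Set.Ioo (b i - 1 / 2) (b i + 1 / 2)

lemma measurableSet_cub (b : R3) : MeasurableSet (cub b) :=
  MeasurableSet.univ_pi fun i => measurableSet_Ioo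

lemma volume_cub (b : R3) : volume (cub b) = 1 := by
  unfold cub
  rw [Real.volume_pi_Ioo]
  have : ∀ i, b i + 1 / 2 - (b i - 1 / 2) = 1 := fun i => by ring
  simp only [this, ENNReal.ofReal_one, Finset.prod_const_one]

lemma cub_disjoint {B : Set R3} (hB : Latt B) :
    Pairwise (Function.onFun Disjoint fun b : B => cub b) := by
  intro a b hab
  rw [Function.onFun, Set.disjoint_left]
  intro x hx hy
  apply hab
  apply Subtype.ext
  funext i
  obtain ⟨m, hm⟩ := hB a a.2 i
  obtain ⟨k, hk⟩ := hB b b.2 i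
  have h1 := hx i (Set.mem_univ i)
  have h2 := hy i (Set.mem_univ i)
  simp only [Set.mem_Ioo] at h1 h2
  rw [hm] at h1 ⊢
  rw [hk] at h2 ⊢
  have h3 : (m:ℝ) < k + 1 := by linarith [h1.1, h2.2]
  have h4 : (k:ℝ) < m + 1 := by linarith [h1.2, h2.1]
  have h5 : m < k + 1 := by exact_mod_cast h3
  have h6 : k < m + 1 := by exact_mod_cast h4
  have : m = k := by omega
  rw [this]

lemma eno_le_of_cub {b x : R3} (h : x ∈ cub b) : eno (b - x) ≤ 1 := by
  unfold eno
  rw [Real.sqrt_le_left (by norm_num), one_pow]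
  unfold esq
  have : ∀ i, (b - x) i ^ 2 ≤ 1 / 4 := by
    intro i
    have h1 := h i (Set.mem_univ i)
    simp only [Set.mem_Ioo] at h1
    rw [Pi.sub_apply]
    nlinarith [h1.1, h1.2]
  calc ∑ i, (b - x) i ^ 2 ≤ ∑ i : Fin 3, (1:ℝ) / 4 := Finset.sum_le_sum fun i _ => this i
    _ ≤ 1 := by norm_num

lemma Gw_sq_shift (h : 0 ≤ lam) (x y : R3) :
    Gw lam x ^ 2 ≤ Real.exp (2 * lam * eno (x - y)) * Gw lam y ^ 2 := by
  have h1 := Gw_shift_le h x y
  have h2 := (Gw_pos lam x).le
  calc Gw lam x ^ 2 ≤ (Real.exp (lam * eno (x - y)) * Gw lam y) ^ 2 := by gcongr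
    _ = Real.exp (2 * lam * eno (x - y)) * Gw lam y ^ 2 := by
        rw [mul_pow, ← Real.exp_nat_mul]; congr 2; push_cast; ring

lemma summable_Gw (h : 0 < lam) {B : Set R3} (hB : Latt B) :
    Summable (fun b : B => Gw lam b ^ 2) := by
  haveI : Countable B := (Latt.countable hB).to_subtype
  have h1 := (hasSum_integral_iUnion (s := fun b : B => cub b) (fun b => measurableSet_cub b)
    (cub_disjoint hB) (int_Gw_sq h).integrableOn).summable
  refine Summable.of_nonneg_of_le (fun b => sq_nonneg _) (fun b => ?_)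
    (h1.mul_left (Real.exp (2 * lam)))
  have h2 : ∫ x in cub (b:R3), Real.exp (-(2 * lam)) * Gw lam b ^ 2 ≤ ∫ x in cub (b:R3), Gw lam x ^ 2 := by
    refine setIntegral_mono_on ?_ (int_Gw_sq h).integrableOn (measurableSet_cub _) ?_
    · exact integrableOn_const (by rw [volume_cub]; exact ENNReal.one_ne_top)
    · intro x hx
      have h3 := Gw_sq_shift h.le (b:R3) x
      have h4 := eno_le_of_cub hx
      have h5 : Real.exp (2 * lam * eno ((b:R3) - x)) ≤ Real.exp (2 * lam) :=
        Real.exp_le_exp.mpr (by nlinarith)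
      rw [Real.exp_neg, inv_mul_le_iff₀ (Real.exp_pos _)]
      exact h3.trans (mul_le_mul_of_nonneg_right h5 (sq_nonneg _))
  rw [setIntegral_const, smul_eq_mul] at h2
  have h3 : volume.real (cub (b:R3)) = 1 := by
    unfold Measure.real; rw [volume_cub]; simp
  rw [h3, one_mul, Real.exp_neg, inv_mul_le_iff₀ (Real.exp_pos _)] at h2
  exact h2

/-- lintegral version of the covering estimate. -/
lemma setIntegral_far_le (h : 0 < lam) {B : Set R3} (hB : Latt B) {r : ℝ} (hr : 0 < r) :
    ∫ x in {x | ¬ Far B r x}, Gw lam x ^ 2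
      ≤ 8 * r ^ 3 * Real.exp (2 * lam * r) * ∑' b : B, Gw lam b ^ 2 := by
  haveI : Countable B := (Latt.countable hB).to_subtype
  set F : R3 → ENNReal := fun x => ENNReal.ofReal (Gw lam x ^ 2) with hF
  have hU : {x | ¬ Far B r x} = ⋃ b : B, {x : R3 | eno (x - (b:R3)) < r} := by
    ext x
    simp only [Far, not_forall, not_le, Set.mem_setOf_eq, Set.mem_iUnion, Subtype.exists,
      exists_prop]
  have h1 : ∀ b : B, ∫⁻ x in {x : R3 | eno (x - (b:R3)) < r}, F x
      ≤ ENNReal.ofReal (8 * r ^ 3 * Real.exp (2 * lam * r) * Gw lam b ^ 2) := by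
    intro b
    have hsub : {x : R3 | eno (x - (b:R3)) < r}
        ⊆ Set.pi Set.univ fun i => Set.Ioo ((b:R3) i - r) ((b:R3) i + r) := by
      intro x hx i _
      have h2 := (norm_le_eno (x - (b:R3))).trans_lt hx
      have h3 := (norm_le_pi_norm (x - (b:R3)) i).trans_lt h2
      rw [Real.norm_eq_abs, Pi.sub_apply, abs_lt] at h3
      exact ⟨by linarith [h3.1], by linarith [h3.2]⟩
    have hmeas : MeasurableSet {x : R3 | eno (x - (b:R3)) < r} :=
      (isOpen_lt (continuous_eno.comp (continuous_id.sub continuous_const))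
        continuous_const).measurableSet
    calc ∫⁻ x in {x : R3 | eno (x - (b:R3)) < r}, F x
        ≤ ∫⁻ x in {x : R3 | eno (x - (b:R3)) < r},
            ENNReal.ofReal (Real.exp (2 * lam * r) * Gw lam b ^ 2) := by
          refine setLIntegral_mono measurable_const (fun x hx => ?_)
          apply ENNReal.ofReal_le_ofReal
          refine (Gw_sq_shift h.le x b).trans ?_
          refine mul_le_mul_of_nonneg_right ?_ (sq_nonneg _)
          apply Real.exp_le_exp.mpr
          have : eno (x - (b:R3)) < r := hx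
          nlinarith
      _ = ENNReal.ofReal (Real.exp (2 * lam * r) * Gw lam b ^ 2)
            * volume {x : R3 | eno (x - (b:R3)) < r} := by rw [setLIntegral_const]
      _ ≤ ENNReal.ofReal (Real.exp (2 * lam * r) * Gw lam b ^ 2) * ENNReal.ofReal ((2 * r) ^ 3) := by
          gcongr
          refine (measure_mono hsub).trans ?_
          rw [Real.volume_pi_Ioo]
          have : ∀ i, (b:R3) i + r - ((b:R3) i - r) = 2 * r := fun i => by ring
          simp only [this, Finset.prod_const, Finset.card_univ, Fintype.card_fin]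
          rw [ENNReal.ofReal_pow (by positivity)]
      _ = _ := by
          rw [← ENNReal.ofReal_mul (by positivity)]
          congr 1; ring
  have h2 : ∫⁻ x in {x | ¬ Far B r x}, F x
      ≤ ∑' b : B, ENNReal.ofReal (8 * r ^ 3 * Real.exp (2 * lam * r) * Gw lam b ^ 2) := by
    rw [hU]
    exact (lintegral_iUnion_le _ _).trans (ENNReal.tsum_le_tsum h1)
  have hs := (summable_Gw h hB).mul_left (8 * r ^ 3 * Real.exp (2 * lam * r))
  rw [← ENNReal.ofReal_tsum_of_nonneg (fun b => by positivity) hs] at h2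
  rw [integral_eq_lintegral_of_nonneg_ae (Eventually.of_forall fun x => sq_nonneg _)
    ((Gw_continuous lam).pow 2).aestronglyMeasurable, ← tsum_mul_left]
  refine ENNReal.toReal_le_of_le_ofReal ?_ h2
  exact tsum_nonneg fun b => by positivity

/-- number of lattice points near `x`. -/
lemma card_near {B : Set R3} (hB : Latt B) (x : R3) (s : Finset B)
    (hs : ∀ b ∈ s, eno (x - (b:R3)) ≤ 4) : s.card ≤ 729 := by
  classical
  choose m hm using fun b : B => hB b b.2
  have hinj : Function.Injective m := by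
    intro a b hab
    apply Subtype.ext
    funext i
    rw [hm a i, hm b i, hab]
  have hmap : ∀ b ∈ s, m b ∈ Fintype.piFinset fun i : Fin 3 =>
      Finset.Icc (⌈x i - 4⌉) (⌊x i + 4⌋) := by
    intro b hb
    rw [Fintype.mem_piFinset]
    intro i
    have h2 := (norm_le_pi_norm (x - (b:R3)) i).trans ((norm_le_eno (x - (b:R3))).trans (hs b hb))
    rw [Real.norm_eq_abs, Pi.sub_apply, abs_le, hm b i] at h2
    rw [Finset.mem_Icc]
    exact ⟨Int.ceil_le.mpr (by linarith [h2.2]), Int.le_floor.mpr (by linarith [h2.1])⟩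
  have h1 : s.card ≤ (Fintype.piFinset fun i : Fin 3 =>
      Finset.Icc (⌈x i - 4⌉) (⌊x i + 4⌋)).card :=
    Finset.card_le_card_of_injOn m hmap (hinj.injOn)
  refine h1.trans ?_
  rw [Fintype.card_piFinset]
  have h2 : ∀ i : Fin 3, (Finset.Icc (⌈x i - 4⌉) (⌊x i + 4⌋)).card ≤ 9 := by
    intro i
    rw [Int.card_Icc]
    have h3 : (⌊x i + 4⌋ : ℤ) = ⌊x i⌋ + 4 := by
      have := Int.floor_add_intCast (x i) 4
      simpa using this
    have h4 : (⌈x i - 4⌉ : ℤ) = ⌈x i⌉ - 4 := by
      have := Int.ceil_sub_intCast (x i) 4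
      simpa using this
    have h5 : ⌊x i⌋ ≤ ⌈x i⌉ := Int.floor_le_ceil _
    omega
  calc ∏ i : Fin 3, (Finset.Icc (⌈x i - 4⌉) (⌊x i + 4⌋)).card ≤ ∏ i : Fin 3, 9 :=
        Finset.prod_le_prod' fun i _ => h2 i
    _ = 729 := by simp

lemma overlap (h : 0 < lam) {B : Set R3} (hB : Latt B) {F : R3 → ℝ} (hF : Continuous F)
    (hF0 : ∀ x, 0 ≤ F x) {M : ℝ} (hM : ∀ x, F x ≤ M) {c : ℝ}
    (hc : ∀ b ∈ B, c ≤ ∫ x in {x | eno (x - b) ≤ 4}, F x) :
    c / 729 * Real.exp (-8 * lam) * ∑' b : B, Gw lam b ^ 2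
      ≤ ∫ x in {x | ¬ Far B 5 x}, Gw lam x ^ 2 * F x := by
  haveI : Countable B := (Latt.countable hB).to_subtype
  have hint : Integrable (fun x => Gw lam x ^ 2 * F x) := by
    refine ((int_Gw_sq h).mul_const M).mono' (((Gw_continuous lam).pow 2).mul hF).aestronglyMeasurable
      (Eventually.of_forall fun x => ?_)
    rw [Real.norm_eq_abs, abs_of_nonneg (mul_nonneg (sq_nonneg _) (hF0 x))]
    exact mul_le_mul_of_nonneg_left (hM x) (sq_nonneg _)
  have hsum := summable_Gw h hB
  have hR0 : 0 ≤ ∫ x in {x | ¬ Far B 5 x}, Gw lam x ^ 2 * F x :=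
    integral_nonneg fun x => mul_nonneg (sq_nonneg _) (hF0 x)
  by_cases hc0 : c ≤ 0
  · refine le_trans ?_ hR0
    have h1 : 0 ≤ Real.exp (-8 * lam) * ∑' b : B, Gw lam b ^ 2 :=
      mul_nonneg (Real.exp_pos _).le (tsum_nonneg fun b => sq_nonneg _)
    have h2 : c / 729 ≤ 0 := by linarith
    rw [mul_assoc]
    exact mul_nonpos_of_nonpos_of_nonneg h2 h1
  push Not at hc0
  have hfin : ∀ s : Finset B, ∑ b ∈ s, c / 729 * Real.exp (-8 * lam) * Gw lam b ^ 2
      ≤ ∫ x in {x | ¬ Far B 5 x}, Gw lam x ^ 2 * F x := by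
    intro s
    classical
    have hbm : ∀ b : R3, MeasurableSet {x : R3 | eno (x - b) ≤ 4} := fun b =>
      (isClosed_le (continuous_eno.comp (continuous_id.sub continuous_const))
        continuous_const).measurableSet
    have h1 : ∀ b : B, c * Real.exp (-8 * lam) * Gw lam b ^ 2
        ≤ ∫ x in {x : R3 | eno (x - (b:R3)) ≤ 4}, Gw lam x ^ 2 * F x := by
      intro b
      have hFi : IntegrableOn F {x | eno (x - (b:R3)) ≤ 4} := by
        have hcpt : IsCompact {x : R3 | eno (x - (b:R3)) ≤ 4} := by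
          have : {x : R3 | eno (x - (b:R3)) ≤ 4} = eb (b:R3) 4 := by
            ext x
            rw [mem_eb_sqrt (by norm_num), ← eno_eq_dsq]; rfl
          rw [this]; exact isCompact_eb _ _
        exact hF.continuousOn.integrableOn_compact hcpt
      have h2 : ∫ x in {x | eno (x - (b:R3)) ≤ 4}, Real.exp (-8 * lam) * Gw lam b ^ 2 * F x
          ≤ ∫ x in {x | eno (x - (b:R3)) ≤ 4}, Gw lam x ^ 2 * F x := by
        refine setIntegral_mono_on (hFi.const_mul _) hint.integrableOn (hbm b) ?_
        intro x hx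
        refine mul_le_mul_of_nonneg_right ?_ (hF0 x)
        have h3 := Gw_sq_shift h.le (b:R3) x
        have h4 : eno ((b:R3) - x) ≤ 4 := by rw [eno_comm]; exact hx
        have h5 : Real.exp (2 * lam * eno ((b:R3) - x)) ≤ Real.exp (8 * lam) :=
          Real.exp_le_exp.mpr (by nlinarith)
        rw [show -8 * lam = -(8 * lam) by ring, Real.exp_neg, inv_mul_le_iff₀ (Real.exp_pos _)]
        exact h3.trans (mul_le_mul_of_nonneg_right h5 (sq_nonneg _))
      rw [integral_const_mul] at h2
      have h6 := mul_le_mul_of_nonneg_left (hc b b.2)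
        (show 0 ≤ Real.exp (-8 * lam) * Gw lam b ^ 2 by positivity)
      calc c * Real.exp (-8 * lam) * Gw lam b ^ 2
          = Real.exp (-8 * lam) * Gw lam b ^ 2 * c := by ring
        _ ≤ _ := h6.trans h2
    have h2 : ∑ b ∈ s, ∫ x in {x | eno (x - (b:R3)) ≤ 4}, Gw lam x ^ 2 * F x
        ≤ 729 * ∫ x in {x | ¬ Far B 5 x}, Gw lam x ^ 2 * F x := by
      have e1 : ∀ b : B, ∫ x in {x | eno (x - (b:R3)) ≤ 4}, Gw lam x ^ 2 * F x
          = ∫ x, ({x | eno (x - (b:R3)) ≤ 4}).indicator (fun x => Gw lam x ^ 2 * F x) x :=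
        fun b => (integral_indicator (hbm b)).symm
      have hU : MeasurableSet {x | ¬ Far B 5 x} := (measurableSet_Far B 5).compl
      simp_rw [e1]
      rw [← integral_finset_sum s (fun (b : B) _ => hint.indicator (hbm (b:R3))),
        ← integral_indicator hU, ← integral_const_mul]
      refine integral_mono (integrable_finset_sum _ fun (b : B) _ => hint.indicator (hbm (b:R3)))
        ((hint.indicator hU).const_mul 729) ?_
      intro x
      have hFx : 0 ≤ Gw lam x ^ 2 * F x := mul_nonneg (sq_nonneg _) (hF0 x)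
      show ∑ b ∈ s, ({x | eno (x - (b:R3)) ≤ 4}).indicator (fun x => Gw lam x ^ 2 * F x) x
        ≤ 729 * ({x | ¬ Far B 5 x}).indicator (fun x => Gw lam x ^ 2 * F x) x
      have e2 : ∑ b ∈ s, ({x | eno (x - (b:R3)) ≤ 4}).indicator (fun x => Gw lam x ^ 2 * F x) x
          = ((s.filter fun b : B => eno (x - (b:R3)) ≤ 4).card : ℝ) * (Gw lam x ^ 2 * F x) := by
        rw [Finset.card_eq_sum_ones, Nat.cast_sum, Finset.sum_mul, Finset.sum_filter]
        refine Finset.sum_congr rfl fun b _ => ?_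
        by_cases hb : eno (x - (b:R3)) ≤ 4
        · rw [Set.indicator_of_mem (by exact hb), if_pos hb]; simp
        · rw [Set.indicator_of_notMem (by exact hb), if_neg hb]
      rw [e2]
      have h7 := card_near hB x (s.filter fun b : B => eno (x - (b:R3)) ≤ 4)
        (fun b hb => (Finset.mem_filter.mp hb).2)
      by_cases hx : ¬ Far B 5 x
      · rw [Set.indicator_of_mem (by exact hx)]
        exact mul_le_mul_of_nonneg_right (by exact_mod_cast h7) hFx
      · rw [Set.indicator_of_notMem (by exact hx), mul_zero]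
        have h8 : (s.filter fun b : B => eno (x - (b:R3)) ≤ 4) = ∅ := by
          rw [Finset.filter_eq_empty_iff]
          intro b _ hb
          push Not at hx
          have := hx b b.2
          linarith
        rw [h8]; simp
    have h3 := (Finset.sum_le_sum fun b (_ : b ∈ s) => h1 b).trans h2
    have e3 : ∑ b ∈ s, c / 729 * Real.exp (-8 * lam) * Gw lam b ^ 2
        = (1 / 729) * ∑ b ∈ s, c * Real.exp (-8 * lam) * Gw lam b ^ 2 := by
      rw [Finset.mul_sum]
      exact Finset.sum_congr rfl fun b _ => by ring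
    rw [e3]
    linarith
  rw [← tsum_mul_left]
  exact (hsum.mul_left _).tsum_le_of_sum_le hfin

theorem stGw : StGw := by
  intro lam h0 h1
  refine ⟨fun k => Gw_cd lam, fun x => ⟨Gw_pos lam x, Gw_le_one h0.le x⟩, gs_Gw_le lam,
    Gw_shift_le h0.le, int_Gw_sq h0, fun B hB => summable_Gw h0 hB,
    fun B hB r hr => setIntegral_far_le h0 hB hr, ?_⟩
  intro B hB F hF hF0 hM c hc
  obtain ⟨M, hM⟩ := hM
  exact overlap h0 hB hF hF0 hM hc

end Vale.Agent.P134.H586
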