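import Vale.Agent.P134.H930.MISdef

set_option linter.all false

/-! `StPB2`: the tail `|t| > L` of the tube integral. -/

namespace Vale.Agent.P134.H586

open Vale.Agent.P134 Vale.Agent.P134.SM Vale.Agent.P134.LI Vale.Agent.P134.H377
  Vale.Agent.P134.H930 MeasureTheory Filter Topology
open scoped ENNReal

lemma zt_ne_zero {τ t : ℝ} (h : zt τ t ≠ 0) : |t| ≤ τ + 1 := by
  by_contra h2
  push Not at h2
  exact h (Real.smoothTransition.zero_of_nonpos (by linarith))

lemma prf_sq_le (ε κ : ℝ) (u : R3 → ℝ) (x : R3) (t : ℝ) :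
    prf ε κ u x t ^ 2 ≤ g1 (phi u x + t) ^ 2 := by
  unfold prf zt
  rw [mul_pow]
  have h1 := Real.smoothTransition.nonneg (dep ε κ u x + 1 - |t|)
  have h2 := Real.smoothTransition.le_one (dep ε κ u x + 1 - |t|)
  have h3 : Real.smoothTransition (dep ε κ u x + 1 - |t|) ^ 2 ≤ 1 := pow_le_one₀ h1 h2
  have h4 := sq_nonneg (g1 (phi u x + t))
  nlinarith

/-- the region `{(x, t) : d(x) < 2W + |t|}`. -/
lemma measurableSet_near (B : Set R3) (W : ℝ) :
    MeasurableSet {z : R3 × ℝ | ¬ Far B (2 * W + |z.2|) z.1} := by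
  have : IsOpen {z : R3 × ℝ | ¬ Far B (2 * W + |z.2|) z.1} := by
    have e : {z : R3 × ℝ | ¬ Far B (2 * W + |z.2|) z.1}
        = ⋃ b ∈ B, {z : R3 × ℝ | eno (z.1 - b) < 2 * W + |z.2|} := by
      ext z
      simp only [Far, not_forall, not_le, Set.mem_setOf_eq, Set.mem_iUnion, exists_prop]
    rw [e]
    refine isOpen_biUnion fun b _ => isOpen_lt ?_ ?_
    · exact continuous_eno.comp (continuous_fst.sub continuous_const)
    · exact continuous_const.add continuous_snd.abs
  exact this.measurableSet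

lemma cube_le {r : ℝ} (hr : 0 ≤ r) : (2 + r) ^ 3 ≤ 216 * Real.exp (r / 2) := by
  have h1 : r / 6 + 1 ≤ Real.exp (r / 6) := Real.add_one_le_exp _
  have h2 : Real.exp (r / 2) = Real.exp (r / 6) ^ 3 := by
    rw [← Real.exp_nat_mul]; congr 1; push_cast; ring
  have h3 : (r / 6 + 1) ^ 3 ≤ Real.exp (r / 6) ^ 3 := by gcongr
  have h4 : (2 + r) ^ 3 ≤ (6 + r) ^ 3 := by gcongr; norm_num
  have h5 : (6 + r) ^ 3 = 216 * (r / 6 + 1) ^ 3 := by ring
  rw [h2]; linarith

/-- the one-dimensional bound. -/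
lemma tail_bound {W L lam r : ℝ} (hW : 2 ≤ W) (hl0 : 0 < lam) (hl : 4 * W * lam ≤ 1)
    (hr : 0 ≤ r) (hLr : L ≤ r) :
    Real.exp (-(2 * Real.sqrt 2 * r)) *
      (Real.exp (2 * lam * (2 * W + r)) * (SM.vb 3 * (2 * W + r) ^ 3))
      ≤ 216 * Real.exp 1 * SM.vb 3 * W ^ 3 * Real.exp (-L) * Real.exp (-r) := by
  have hv := SM.vb_pos 3
  have h1 : (2 * W + r) ^ 3 ≤ W ^ 3 * (216 * Real.exp (r / 2)) := by
    have a : 2 * W + r ≤ W * (2 + r) := by nlinarith
    calc (2 * W + r) ^ 3 ≤ (W * (2 + r)) ^ 3 := by gcongr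
      _ = W ^ 3 * (2 + r) ^ 3 := by ring
      _ ≤ _ := by
        have := cube_le hr
        gcongr
  have h2 : Real.exp (2 * lam * (2 * W + r)) ≤ Real.exp 1 * Real.exp (r / 4) := by
    rw [← Real.exp_add]
    apply Real.exp_le_exp.mpr
    have h3 : 2 * lam * r ≤ r / 4 := by
      have : 8 * lam ≤ 1 := by nlinarith
      nlinarith
    nlinarith
  have h3 : Real.exp (-(2 * Real.sqrt 2 * r)) ≤ Real.exp (-L) * Real.exp (-r)
      * (Real.exp (-(r / 2)) * Real.exp (-(r / 4))) := by
    rw [← Real.exp_add, ← Real.exp_add, ← Real.exp_add]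
    apply Real.exp_le_exp.mpr
    have h4 : (1.4:ℝ) ≤ Real.sqrt 2 := by
      apply Real.le_sqrt_of_sq_le; norm_num
    nlinarith
  have e1 : Real.exp (-(r / 2)) * Real.exp (r / 2) = 1 := by rw [← Real.exp_add]; simp
  have e2 : Real.exp (-(r / 4)) * Real.exp (r / 4) = 1 := by rw [← Real.exp_add]; simp
  calc Real.exp (-(2 * Real.sqrt 2 * r)) *
      (Real.exp (2 * lam * (2 * W + r)) * (SM.vb 3 * (2 * W + r) ^ 3))
      ≤ (Real.exp (-L) * Real.exp (-r) * (Real.exp (-(r / 2)) * Real.exp (-(r / 4)))) *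
        ((Real.exp 1 * Real.exp (r / 4)) * (SM.vb 3 * (W ^ 3 * (216 * Real.exp (r / 2))))) := by
        gcongr
    _ = 216 * Real.exp 1 * SM.vb 3 * W ^ 3 * Real.exp (-L) * Real.exp (-r)
        * (Real.exp (-(r / 2)) * Real.exp (r / 2)) * (Real.exp (-(r / 4)) * Real.exp (r / 4)) := by
        ring
    _ = _ := by rw [e1, e2]; ring

lemma lint_exp_abs : ∫⁻ t : ℝ, ENNReal.ofReal (Real.exp (-|t|)) ≤ 2 := by
  have hi : Integrable (fun t : ℝ => Real.exp (-|t|)) := by
    have := H930.integrable_exp_abs (c := 1) one_pos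
    simpa using this
  rw [← ofReal_integral_eq_lintegral_ofReal hi (Eventually.of_forall fun t => (Real.exp_pos _).le)]
  have h : ∫ t : ℝ, Real.exp (-|t|) = 2 := by
    have := integral_comp_abs (f := fun t => Real.exp (-t))
    rw [this, integral_exp_neg_Ioi_zero]; norm_num
  rw [h]; norm_num

theorem PB2 (hJ : StJJ) : StPB2 := by
  intro s3 hs3
  refine ⟨16 * Real.exp (2 * Real.sqrt 2 * s3) * (216 * Real.exp 1 * SM.vb 3) * 2, ?_, ?_⟩
  · have := SM.vb_pos 3; positivity
  intro K ε δ W L κ lam hN u B w om v hD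
  have hW2 : 2 ≤ W := by nlinarith [hN.LW, hN.L1]
  have hL0 : 0 ≤ L := by linarith [hN.L1]
  have hv := SM.vb_pos 3
  set A : ℝ := 16 * Real.exp (2 * Real.sqrt 2 * s3) with hA
  have hA0 : 0 ≤ A := by positivity
  set N : Set (R3 × ℝ) := {z : R3 × ℝ | ¬ Far B (2 * W + |z.2|) z.1} with hNdef
  have hNm : MeasurableSet N := measurableSet_near B W
  -- pointwise bound
  have hpt : ∀ z : R3 × ℝ, ENNReal.ofReal |h2 ε κ lam u w om v z|
      ≤ N.indicator (fun z => ENNReal.ofReal (A * Real.exp (-(2 * Real.sqrt 2 * |z.2|)))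
        * GE lam z.1) z := by
    rintro ⟨x, t⟩
    by_cases h0 : h2 ε κ lam u w om v (x, t) = 0
    · rw [h0, abs_zero, ENNReal.ofReal_zero]; exact bot_le
    have h0' : w (phi u x) * rr u x * (Gw lam x * om x) ^ 2 *
        (jj u x t * prf ε κ u x t ^ 2 * v (xt u x t)) ≠ 0 := h0
    have nw : w (phi u x) ≠ 0 := by intro h; apply h0'; rw [h]; ring
    have nom : om x ≠ 0 := by intro h; apply h0'; rw [h]; ring
    have np : prf ε κ u x t ≠ 0 := by intro h; apply h0'; rw [h]; ring
    have nv : v (xt u x t) ≠ 0 := by intro h; apply h0'; rw [h]; ring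
    have hphi : |phi u x| ≤ s3 := by
      by_contra hc; push Not at hc; exact nw (hD.hws _ hc.le)
    have hfar : Far B (W / 4) x := by
      by_contra hc; exact nom (hD.hom1 x hc)
    have hq : qq u x ≤ δ := hD.hq x (by linarith) hfar
    have ht : |t| ≤ dep ε κ u x + 1 := by
      apply zt_ne_zero (τ := dep ε κ u x) (t := t)
      intro h; apply np; unfold prf; rw [h, mul_zero]
    have hjj : |jj u x t| ≤ 2 := hJ s3 K ε δ W L κ lam hN u hD.hu hD.hl x t hq ht
    have hnear : ¬ Far B (2 * W + |t|) x := by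
      have h1 := (hD.hv2 _ nv).2
      exact not_far_sub h1 (eno_xt_le u x t)
    have hmem : (x, t) ∈ N := hnear
    rw [Set.indicator_of_mem hmem]
    simp only [GE]
    rw [← ENNReal.ofReal_mul (by positivity)]
    apply ENNReal.ofReal_le_ofReal
    have b1 := g1_sq_shift (s := phi u x) (t := t) hphi
    have b2 := (prf_sq_le ε κ u x t).trans b1
    have b3 := rr_le_one hD.hu hD.hl x
    have b4 := rr_nonneg u x
    have b5 := hD.hw0 (phi u x)
    have b6 := hD.hom0 x
    have b7 := hD.hv1 (xt u x t)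
    have b8 : om x ^ 2 ≤ 1 := pow_le_one₀ b6.1 b6.2
    have e : |h2 ε κ lam u w om v (x, t)| = w (phi u x) * rr u x * (Gw lam x ^ 2 * om x ^ 2) *
        (|jj u x t| * prf ε κ u x t ^ 2 * |v (xt u x t)|) := by
      show |w (phi u x) * rr u x * (Gw lam x * om x) ^ 2 *
        (jj u x t * prf ε κ u x t ^ 2 * v (xt u x t))| = _
      rw [abs_mul, abs_mul, abs_mul, abs_mul, abs_mul, abs_of_nonneg b5.1, abs_of_nonneg b4,
        abs_of_nonneg (sq_nonneg (Gw lam x * om x)), abs_of_nonneg (sq_nonneg (prf ε κ u x t)),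
        mul_pow]
    rw [e]
    have c1 : w (phi u x) * rr u x ≤ 1 := by nlinarith [b5.1, b5.2]
    have c2 : Gw lam x ^ 2 * om x ^ 2 ≤ Gw lam x ^ 2 := by
      nlinarith [sq_nonneg (Gw lam x)]
    have c3 : w (phi u x) * rr u x * (Gw lam x ^ 2 * om x ^ 2) ≤ Gw lam x ^ 2 := by
      have : 0 ≤ Gw lam x ^ 2 * om x ^ 2 := by positivity
      nlinarith [mul_nonneg b5.1 b4]
    have c4 : |jj u x t| * prf ε κ u x t ^ 2 * |v (xt u x t)|
        ≤ 2 * (8 * Real.exp (2 * Real.sqrt 2 * s3) * Real.exp (-(2 * Real.sqrt 2 * |t|))) * 1 := by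
      gcongr
    calc w (phi u x) * rr u x * (Gw lam x ^ 2 * om x ^ 2) *
        (|jj u x t| * prf ε κ u x t ^ 2 * |v (xt u x t)|)
        ≤ Gw lam x ^ 2 *
          (2 * (8 * Real.exp (2 * Real.sqrt 2 * s3) * Real.exp (-(2 * Real.sqrt 2 * |t|))) * 1) := by
          gcongr
      _ = A * Real.exp (-(2 * Real.sqrt 2 * |t|)) * Gw lam x ^ 2 := by rw [hA]; ring
  set S : Set (R3 × ℝ) := {z : R3 × ℝ | L < |z.2|} with hS
  have hSm : MeasurableSet S := measurableSet_lt measurable_const measurable_snd.abs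
  set F : R3 × ℝ → ℝ≥0∞ := S.indicator (N.indicator (fun z =>
    ENNReal.ofReal (A * Real.exp (-(2 * Real.sqrt 2 * |z.2|))) * GE lam z.1)) with hF
  have hFm : Measurable F := by
    refine ((Measurable.mul ?_ ((measurable_GE lam).comp measurable_fst)).indicator hNm).indicator hSm
    exact (measurable_const.mul (Real.measurable_exp.comp
      (measurable_const.mul measurable_snd.abs).neg)).ennreal_ofReal
  have h1 : ∫⁻ z in S, ENNReal.ofReal |h2 ε κ lam u w om v z| ≤ ∫⁻ z, F z := by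
    calc ∫⁻ z in S, ENNReal.ofReal |h2 ε κ lam u w om v z|
        ≤ ∫⁻ z in S, N.indicator (fun z => ENNReal.ofReal (A * Real.exp (-(2 * Real.sqrt 2 * |z.2|)))
          * GE lam z.1) z := lintegral_mono hpt
      _ = ∫⁻ z, F z := by rw [hF, lintegral_indicator hSm]
  refine h1.trans ?_
  rw [Measure.volume_eq_prod, lintegral_prod_symm _ hFm.aemeasurable]
  -- inner integral
  have hin : ∀ t : ℝ, ∫⁻ x, F (x, t) ≤
      ENNReal.ofReal (A * (216 * Real.exp 1 * SM.vb 3 * W ^ 3 * Real.exp (-L)) * Real.exp (-|t|))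
        * SB lam B := by
    intro t
    by_cases ht : L < |t|
    · have hr : 0 ≤ 2 * W + |t| := by have := abs_nonneg t; linarith
      have hm2 : MeasurableSet {x : R3 | ¬ Far B (2 * W + |t|) x} :=
        measurable_prodMk_right (y := t) hNm
      calc ∫⁻ x, F (x, t)
          = ∫⁻ x, ({x : R3 | ¬ Far B (2 * W + |t|) x}).indicator (fun x =>
              ENNReal.ofReal (A * Real.exp (-(2 * Real.sqrt 2 * |t|))) * GE lam x) x := by
            refine lintegral_congr fun x => ?_
            have hxS : (x, t) ∈ S := ht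
            simp only [hF]
            rw [Set.indicator_of_mem hxS]
            rfl
        _ = ENNReal.ofReal (A * Real.exp (-(2 * Real.sqrt 2 * |t|))) *
              ∫⁻ x in {x : R3 | ¬ Far B (2 * W + |t|) x}, GE lam x := by
            rw [lintegral_indicator hm2, lintegral_const_mul _ (measurable_GE lam)]
        _ ≤ ENNReal.ofReal (A * Real.exp (-(2 * Real.sqrt 2 * |t|))) *
              (ENNReal.ofReal (Real.exp (2 * lam * (2 * W + |t|)) *
                (SM.vb 3 * (2 * W + |t|) ^ 3)) * SB lam B) := by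
            gcongr
            exact lintegral_GE_near hN.l0.le hD.hB hr
        _ = ENNReal.ofReal (A * (Real.exp (-(2 * Real.sqrt 2 * |t|)) *
              (Real.exp (2 * lam * (2 * W + |t|)) * (SM.vb 3 * (2 * W + |t|) ^ 3))))
              * SB lam B := by
            rw [← mul_assoc, ← ENNReal.ofReal_mul (by positivity)]
            congr 2; ring
        _ ≤ _ := by
            refine mul_le_mul' (ENNReal.ofReal_le_ofReal ?_) le_rfl
            have := tail_bound (L := L) hW2 hN.l0 hN.l1 (abs_nonneg t) ht.le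
            calc A * (Real.exp (-(2 * Real.sqrt 2 * |t|)) *
              (Real.exp (2 * lam * (2 * W + |t|)) * (SM.vb 3 * (2 * W + |t|) ^ 3)))
                ≤ A * (216 * Real.exp 1 * SM.vb 3 * W ^ 3 * Real.exp (-L) * Real.exp (-|t|)) := by
                  gcongr
              _ = _ := by ring
    · have : ∀ x, F (x, t) = 0 := by
        intro x
        have hxS : (x, t) ∉ S := ht
        simp only [hF]
        rw [Set.indicator_of_notMem hxS]
      simp only [this, lintegral_zero]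
      exact bot_le
  calc ∫⁻ t, ∫⁻ x, F (x, t)
      ≤ ∫⁻ t : ℝ, ENNReal.ofReal (A * (216 * Real.exp 1 * SM.vb 3 * W ^ 3 * Real.exp (-L))
          * Real.exp (-|t|)) * SB lam B := lintegral_mono hin
    _ = ∫⁻ t : ℝ, (ENNReal.ofReal (A * (216 * Real.exp 1 * SM.vb 3 * W ^ 3 * Real.exp (-L)))
          * SB lam B) * ENNReal.ofReal (Real.exp (-|t|)) := by
        refine lintegral_congr fun t => ?_
        rw [ENNReal.ofReal_mul (by positivity)]; ring
    _ = (ENNReal.ofReal (A * (216 * Real.exp 1 * SM.vb 3 * W ^ 3 * Real.exp (-L)))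
          * SB lam B) * ∫⁻ t : ℝ, ENNReal.ofReal (Real.exp (-|t|)) := by
        rw [lintegral_const_mul _ (by fun_prop)]
    _ ≤ (ENNReal.ofReal (A * (216 * Real.exp 1 * SM.vb 3 * W ^ 3 * Real.exp (-L)))
          * SB lam B) * 2 := by
        gcongr
        exact lint_exp_abs
    _ = ENNReal.ofReal (A * (216 * Real.exp 1 * SM.vb 3) * 2 * W ^ 3 * Real.exp (-L))
          * SB lam B := by
        have e2 : (2 : ℝ≥0∞) = ENNReal.ofReal 2 := by norm_num
        rw [e2, mul_comm _ (ENNReal.ofReal 2), ← mul_assoc, ← ENNReal.ofReal_mul (by norm_num)]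
        congr 2; ring

end Vale.Agent.P134.H586
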