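import Vale.Agent.P134.H586.LI3

set_option linter.all false

/-! P134, R3: the exponential weight `Gw`, the relations `D = f² q`, and LI3 in the notation of
`LI/Defs.lean`. -/

namespace Vale.Agent.P134.H586

open Vale.Agent.P134 Vale.Agent.P134.SM Vale.Agent.P134.LI MeasureTheory Filter Topology

/-! ### The weight `Gw` -/

section Gw

variable {lam : ℝ}

lemma esq_cd {k : WithTop ℕ∞} : ContDiff ℝ k (esq : R3 → ℝ) := by
  unfold esq
  fun_prop

lemma esq_pd (i : Fin 3) (x : R3) : pd i (esq : R3 → ℝ) x = 2 * x i := by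
  unfold esq
  have h : ∀ j : Fin 3, DifferentiableAt ℝ (fun y : R3 => y j) x := fun j => by fun_prop
  rw [pd_sum _ (fun j _ => (h j).fun_pow 2)]
  simp_rw [pd_sq (h _), pd_coord]
  simp

/-- `√(1+|x|²)`. -/
noncomputable def jb (x : R3) : ℝ := Real.sqrt (1 + esq x)

lemma one_add_esq_pos (x : R3) : 0 < 1 + esq x := by have := esq_nonneg x; linarith

lemma jb_pos (x : R3) : 0 < jb x := Real.sqrt_pos.mpr (one_add_esq_pos x)

lemma jb_sq (x : R3) : jb x ^ 2 = 1 + esq x := Real.sq_sqrt (one_add_esq_pos x).le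

lemma one_le_jb (x : R3) : 1 ≤ jb x := by
  have := esq_nonneg x
  rw [show (1:ℝ) = Real.sqrt 1 by simp]
  exact Real.sqrt_le_sqrt (by linarith)

lemma eno_le_jb (x : R3) : eno x ≤ jb x := Real.sqrt_le_sqrt (by linarith)

lemma jb_le (x : R3) : jb x ≤ 1 + eno x := by
  have h1 := eno_nonneg x
  unfold jb
  rw [Real.sqrt_le_left (by linarith)]
  have := eno_sq x
  nlinarith

lemma jb_cd {k : WithTop ℕ∞} : ContDiff ℝ k jb :=
  (contDiff_const.add esq_cd).sqrt (fun x => (one_add_esq_pos x).ne')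

lemma jb_continuous : Continuous jb := (jb_cd (k := 0)).continuous

lemma pd_jb (i : Fin 3) (x : R3) : pd i jb x = x i / jb x := by
  have h1 : pd i (fun y => jb y ^ 2) x = 2 * jb x * pd i jb x :=
    pd_sq ((jb_cd (k := 1)).differentiable (by norm_num) x)
  have h2 : pd i (fun y => jb y ^ 2) x = 2 * x i := by
    have : (fun y => jb y ^ 2) = fun y => (1:ℝ) + esq y := by funext y; exact jb_sq y
    rw [this, pd_add (f := fun _ => (1:ℝ)) (by fun_prop)
      ((esq_cd (k := 1)).differentiable (by norm_num) x), pd_const, esq_pd]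
    ring
  have h3 := jb_pos x
  rw [h2] at h1
  rw [eq_div_iff h3.ne']
  linarith

lemma gs_jb_le (x : R3) : gs jb x ≤ 1 := by
  unfold gs
  simp_rw [pd_jb, div_pow]
  rw [← Finset.sum_div, div_le_one (by have := jb_pos x; positivity), jb_sq]
  have : ∑ i, x i ^ 2 = esq x := rfl
  rw [this]; linarith

lemma Gw_eq (lam : ℝ) : Gw lam = fun x => Real.exp (-lam * jb x) := rfl

lemma Gw_pos (lam : ℝ) (x : R3) : 0 < Gw lam x := Real.exp_pos _

lemma Gw_le_one (h : 0 ≤ lam) (x : R3) : Gw lam x ≤ 1 := by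
  rw [Gw_eq]
  apply Real.exp_le_one_iff.mpr
  have := jb_pos x
  nlinarith

lemma Gw_cd (lam : ℝ) {k : WithTop ℕ∞} : ContDiff ℝ k (Gw lam) := by
  rw [Gw_eq]
  exact (contDiff_const.mul jb_cd).exp

lemma Gw_continuous (lam : ℝ) : Continuous (Gw lam) := (Gw_cd lam (k := 0)).continuous

lemma pd_Gw (lam : ℝ) (i : Fin 3) (x : R3) :
    pd i (Gw lam) x = -lam * (x i / jb x) * Gw lam x := by
  have hd : DifferentiableAt ℝ (fun y => -lam * jb y) x :=
    (((jb_cd (k := 1)).differentiable (by norm_num)) x).const_mul _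
  rw [Gw_eq, pd_comp (h := Real.exp) Real.differentiableAt_exp hd, Real.deriv_exp,
    pd_mul (f := fun _ => -lam) (by fun_prop) ((jb_cd (k := 1)).differentiable (by norm_num) x),
    pd_const, pd_jb]
  ring

lemma gs_Gw (lam : ℝ) (x : R3) : gs (Gw lam) x = lam ^ 2 * gs jb x * Gw lam x ^ 2 := by
  unfold gs
  simp_rw [pd_Gw, pd_jb]
  rw [Finset.mul_sum, Finset.sum_mul]
  exact Finset.sum_congr rfl fun i _ => by ring

lemma gs_Gw_le (lam : ℝ) (x : R3) : gs (Gw lam) x ≤ lam ^ 2 * Gw lam x ^ 2 := by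
  rw [gs_Gw]
  have h1 := gs_jb_le x
  have h2 : 0 ≤ lam ^ 2 * Gw lam x ^ 2 := by positivity
  nlinarith [mul_le_mul_of_nonneg_left h1 h2]

lemma abs_pd_Gw_le (h : 0 ≤ lam) (i : Fin 3) (x : R3) : |pd i (Gw lam) x| ≤ lam * Gw lam x := by
  have h1 : pd i (Gw lam) x ^ 2 ≤ gs (Gw lam) x :=
    Finset.single_le_sum (f := fun j => pd j (Gw lam) x ^ 2) (fun _ _ => sq_nonneg _)
      (Finset.mem_univ i)
  have h2 := h1.trans (gs_Gw_le lam x)
  have h3 := (Gw_pos lam x).le
  rw [show lam ^ 2 * Gw lam x ^ 2 = (lam * Gw lam x) ^ 2 by ring] at h2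
  exact abs_le_of_sq_le_sq h2 (by positivity)

lemma abs_gg_Gw_le (h : 0 ≤ lam) (β : R3 → ℝ) (x : R3) :
    |gg (Gw lam) β x| ≤ lam * Gw lam x * wn β x := by
  have h1 := gg_sq_le (Gw lam) β x
  have h2 : gs (Gw lam) x * gs β x ≤ (lam * Gw lam x * wn β x) ^ 2 := by
    rw [mul_pow, wn_sq]
    refine mul_le_mul_of_nonneg_right ?_ (gs_nonneg β x)
    have := gs_Gw_le lam x
    nlinarith
  exact abs_le_of_sq_le_sq (h1.trans h2)
    (mul_nonneg (mul_nonneg h (Gw_pos lam x).le) (wn_nonneg β x))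

/-- `√(1+|x|²)` is 1-Lipschitz. -/
lemma jb_lip (x y : R3) : jb x ≤ jb y + eno (x - y) := by
  have h1 := jb_pos y
  have h2 := eno_nonneg (x - y)
  have hcs : (∑ i, y i * (x i - y i)) ^ 2 ≤ esq y * esq (x - y) :=
    Finset.sum_mul_sq_le_sq_mul_sq _ _ _
  have hcs2 : ∑ i, y i * (x i - y i) ≤ jb y * eno (x - y) := by
    apply le_of_sq_le_sq _ (by positivity)
    rw [mul_pow, jb_sq, eno_sq]
    have := esq_nonneg (x - y)
    nlinarith
  have he : esq x = esq y + 2 * (∑ i, y i * (x i - y i)) + esq (x - y) := by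
    unfold esq
    rw [Finset.mul_sum, ← Finset.sum_add_distrib, ← Finset.sum_add_distrib]
    exact Finset.sum_congr rfl fun i _ => by simp only [Pi.sub_apply]; ring
  rw [show jb x = Real.sqrt (1 + esq x) from rfl, Real.sqrt_le_left (by positivity)]
  have h3 := jb_sq y
  have h4 := eno_sq (x - y)
  nlinarith

/-- Slow variation of the weight. -/
lemma Gw_shift_le (h : 0 ≤ lam) (x y : R3) :
    Gw lam x ≤ Real.exp (lam * eno (x - y)) * Gw lam y := by
  rw [Gw_eq]
  simp only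
  rw [← Real.exp_add]
  apply Real.exp_le_exp.mpr
  have h1 := jb_lip y x
  have h2 : eno (y - x) = eno (x - y) := by
    unfold eno esq
    congr 1
    exact Finset.sum_congr rfl fun i _ => by simp only [Pi.sub_apply]; ring
  rw [h2] at h1
  nlinarith

lemma Gw_le_exp (h : 0 ≤ lam) (x : R3) : Gw lam x ≤ Real.exp (-lam * ‖x‖) := by
  rw [Gw_eq]
  apply Real.exp_le_exp.mpr
  have := (norm_le_eno x).trans (eno_le_jb x)
  nlinarith

end Gw

/-! ### `D = f² q` -/

section Def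

variable {u : R3 → ℝ}

lemma ff_eq (u : R3 → ℝ) : ff u = fn u := rfl

lemma ff_pos (hu : Sol u) (h1 : ∀ x, |u x| < 1) (x : R3) : 0 < ff u x := by
  have := abs_lt.mp (h1 x)
  unfold ff
  apply div_pos _ (by positivity)
  nlinarith

lemma pd_phi (hu : Sol u) (h1 : ∀ x, |u x| < 1) (i : Fin 3) (x : R3) :
    pd i (phi u) x = pd i u x / ff u x := by
  have hl := abs_lt.mp (h1 x)
  have hd : DifferentiableAt ℝ u x := (hu.c2.differentiable (by norm_num)) x
  have e1 : DifferentiableAt ℝ (fun y => (1:ℝ) + u y) x := by fun_prop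
  have e2 : DifferentiableAt ℝ (fun y => (1:ℝ) - u y) x := by fun_prop
  have n1 : (1:ℝ) + u x ≠ 0 := by linarith [hl.1]
  have n2 : (1:ℝ) - u x ≠ 0 := by linarith [hl.2]
  have d1 : DifferentiableAt ℝ (fun y => Real.log (1 + u y)) x := e1.log n1
  have d2 : DifferentiableAt ℝ (fun y => Real.log (1 - u y)) x := e2.log n2
  have p1 : pd i (fun y => Real.log (1 + u y)) x = pd i u x / (1 + u x) := by
    rw [pd_comp (h := Real.log) (f := fun y => 1 + u y) (Real.differentiableAt_log n1) e1,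
      Real.deriv_log, pd_add (f := fun _ => (1:ℝ)) (by fun_prop) hd, pd_const]
    field_simp
    ring
  have p2 : pd i (fun y => Real.log (1 - u y)) x = - pd i u x / (1 - u x) := by
    rw [pd_comp (h := Real.log) (f := fun y => 1 - u y) (Real.differentiableAt_log n2) e2,
      Real.deriv_log, pd_sub (f := fun _ => (1:ℝ)) (by fun_prop) hd, pd_const]
    field_simp
    ring
  have d3 : DifferentiableAt ℝ (fun y => Real.log (1 + u y) - Real.log (1 - u y)) x := d1.sub d2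
  unfold phi
  rw [pd_mul (f := fun _ => Real.sqrt 2 / 2) (by fun_prop) d3, pd_const, pd_sub d1 d2, p1, p2]
  unfold ff
  have hs : Real.sqrt 2 ^ 2 = 2 := Real.sq_sqrt (by norm_num)
  have hs0 : Real.sqrt 2 ≠ 0 := by positivity
  have n3 : (1:ℝ) - u x ^ 2 ≠ 0 := by nlinarith [hl.1, hl.2]
  field_simp
  ring

lemma gs_phi (hu : Sol u) (h1 : ∀ x, |u x| < 1) (x : R3) : gs (phi u) x = gs u x / ff u x ^ 2 := by
  unfold gs
  simp_rw [pd_phi hu h1, div_pow]
  rw [Finset.sum_div]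

/-- `D = f² q`. -/
lemma defi_eq_qq (hu : Sol u) (h1 : ∀ x, |u x| < 1) (x : R3) : defi u x = ff u x ^ 2 * qq u x := by
  have h2 := ff_pos hu h1 x
  rw [qq, gs_phi hu h1, defi_eq]
  have h3 : psi u x ^ 2 / 2 = ff u x ^ 2 := by
    unfold ff psi
    rw [div_pow, Real.sq_sqrt (by norm_num)]
  rw [h3]
  field_simp

lemma qq_nonneg (hu : Sol u) (h1 : ∀ x, |u x| < 1) (x : R3) : 0 ≤ qq u x := by
  have h2 := ff_pos hu h1 x
  have h3 := hu.defi_nonneg x
  rw [defi_eq_qq hu h1] at h3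
  exact (mul_nonneg_iff_of_pos_left (by positivity)).mp h3

lemma qq_le_one (u : R3 → ℝ) (x : R3) : qq u x ≤ 1 := by
  have := gs_nonneg (phi u) x
  unfold qq; linarith

end Def

/-! ### LI3 in the notation of `LI/Defs.lean` -/

variable {u β : R3 → ℝ} {ε lam : ℝ}

/-- **LI3.** -/
theorem LI3 (hu : HS u) (hβ : ContDiff ℝ 2 β) (hc : HasCompactSupport β) (h0 : ∀ x, 0 ≤ β x)
    {G : R3 → ℝ} (hG : ContDiff ℝ 1 G) {X : R3 → R3} (hX : ContDiff ℝ 1 X)
    (hle : ∀ x, β x ≠ 0 → ∑ i, pd i (fun y => X y i) x + dot (X x) (X x) ≤ VV u x + ε) :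
    Real.sqrt 2 * (∫ x, β x * (G x ^ 2 * (ff u x ^ 3 * qq u x)))
      - (∫ x, (G x * ff u x) ^ 2 * dot (X x) (fun i => pd i β x))
      ≤ (∫ x, β x * (ff u x ^ 2 * gs G x)) + (1 / 2) * (∫ x, (G x * ff u x) ^ 2 * lap β x)
        + (∫ x, ff u x ^ 2 * (G x * gg G β x)) + ε * ∫ x, β x * (G x * ff u x) ^ 2 := by
  have h := ball_final (n := 3) (ε := ε) hu.toSol hβ hc h0 hG hX (fun x hx => by
    have := hle x hx
    unfold dot at this
    simp_rw [← pow_two] at this
    exact this)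
  simp_rw [defi_eq_qq hu.toSol hu.lt] at h
  have e : ∀ x, β x * (G x ^ 2 * (ff u x ^ 3 * qq u x))
      = β x * (G x ^ 2 * (fn u x * (ff u x ^ 2 * qq u x))) := by
    intro x; rw [ff_eq]; ring
  simp_rw [e]
  exact h

end Vale.Agent.P134.H586
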