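import Vale.Agent.P134.LI.Defs
import Vale.Agent.P134.SM.Ibp

set_option linter.all false

/-! P134, R3, block LI3 (note 9779): the ball part of the localised stability inequality. -/

namespace Vale.Agent.P134.H586

open Vale.Agent.P134 Vale.Agent.P134.SM Vale.Agent.P134.LI MeasureTheory Filter Topology

variable {n : ℕ} {β F V G u : (Fin n → ℝ) → ℝ} {ε : ℝ}

lemma cont_gs (hf : ContDiff ℝ 1 F) : Continuous (gs F) :=
  continuous_finsetSum _ fun j _ => (continuous_pd hf).pow 2

lemma cont_gg (hf : ContDiff ℝ 1 F) (hg : ContDiff ℝ 1 G) : Continuous (gg F G) :=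
  continuous_finsetSum _ fun j _ => (continuous_pd hf).mul (continuous_pd hg)

lemma cont_lap (hf : ContDiff ℝ 2 F) : Continuous (lap F) :=
  continuous_finsetSum _ fun j _ => continuous_pd (contDiff_pd_one hf)

/-- Riccati field tested with `β F²`: the localised stability inequality.  `β ≥ 0` is `C¹` with
compact support, `div X + |X|² ≤ V + ε` where `β ≠ 0`. -/
theorem ball_ineq (hβ : ContDiff ℝ 1 β) (hc : HasCompactSupport β) (h0 : ∀ x, 0 ≤ β x)
    (hF : ContDiff ℝ 1 F) (hV : Continuous V) {X : (Fin n → ℝ) → Fin n → ℝ} (hX : ContDiff ℝ 1 X)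
    (hle : ∀ x, β x ≠ 0 → ∑ i, pd i (fun y => X y i) x + ∑ i, X x i ^ 2 ≤ V x + ε) :
    - ∫ x, F x ^ 2 * ∑ i, X x i * pd i β x ≤ ∫ x, β x * (gs F x + (V x + ε) * F x ^ 2) := by
  have hXi : ∀ i, ContDiff ℝ 1 (fun y => X y i) := fun i => contDiff_pi.mp hX i
  have hd := hβ.differentiable (by norm_num)
  have hFd := hF.differentiable (by norm_num)
  have hXd : ∀ i, Differentiable ℝ (fun y => X y i) := fun i => (hXi i).differentiable (by norm_num)
  have hY : ∀ i, ContDiff ℝ 1 (fun x => β x * (F x ^ 2 * X x i)) := fun i =>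
    hβ.mul ((hF.pow 2).mul (hXi i))
  have h := int_div_zero (X := fun i x => β x * (F x ^ 2 * X x i)) hY (fun i => hc.mul_right)
  have e : ∀ x i, pd i (fun x => β x * (F x ^ 2 * X x i)) x
      = F x ^ 2 * (X x i * pd i β x)
        + β x * (2 * F x * (pd i F x * X x i) + F x ^ 2 * pd i (fun y => X y i) x) := by
    intro x i
    rw [pd_mul (g := fun x => F x ^ 2 * X x i) (hd x) (by fun_prop),
      pd_mul (f := fun x => F x ^ 2) (g := fun x => X x i) (by fun_prop) (hXd i x), pd_sq (hFd x)]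
    ring
  have e2 : ∀ x, ∑ i, pd i (fun x => β x * (F x ^ 2 * X x i)) x
      ≤ F x ^ 2 * (∑ i, X x i * pd i β x) + β x * (gs F x + (V x + ε) * F x ^ 2) := by
    intro x
    simp_rw [e]
    rw [Finset.sum_add_distrib, ← Finset.mul_sum, ← Finset.mul_sum, Finset.sum_add_distrib,
      ← Finset.mul_sum, ← Finset.mul_sum]
    by_cases hb : β x = 0
    · rw [hb]; simp
    · have h1 := hle x hb
      have h2 : 2 * F x * ∑ i, pd i F x * X x i ≤ gs F x + F x ^ 2 * ∑ i, X x i ^ 2 := by
        have h3 : 0 ≤ ∑ i, (pd i F x - F x * X x i) ^ 2 := Finset.sum_nonneg fun _ _ => sq_nonneg _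
        have h4 : ∑ i, (pd i F x - F x * X x i) ^ 2
            = gs F x - 2 * F x * ∑ i, pd i F x * X x i + F x ^ 2 * ∑ i, X x i ^ 2 := by
          unfold gs
          rw [Finset.mul_sum, Finset.mul_sum, ← Finset.sum_sub_distrib, ← Finset.sum_add_distrib]
          exact Finset.sum_congr rfl fun i _ => by ring
        linarith
      have h5 : F x ^ 2 * (∑ i, pd i (fun y => X y i) x + ∑ i, X x i ^ 2)
          ≤ F x ^ 2 * (V x + ε) := mul_le_mul_of_nonneg_left h1 (sq_nonneg _)
      have h6 := mul_le_mul_of_nonneg_left (show 2 * F x * (∑ i, pd i F x * X x i)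
          + F x ^ 2 * (∑ i, pd i (fun y => X y i) x) ≤ gs F x + (V x + ε) * F x ^ 2 by
        linarith) (h0 x)
      linarith
  have i1 : Integrable (fun x => F x ^ 2 * ∑ i, X x i * pd i β x) := by
    have : (fun x => F x ^ 2 * ∑ i, X x i * pd i β x)
        = fun x => ∑ i, (F x ^ 2 * X x i) * pd i β x := by
      funext x
      rw [Finset.mul_sum]
      exact Finset.sum_congr rfl fun i _ => by ring
    rw [this]
    refine integrable_finset_sum _ fun i _ => ?_
    exact (((hF.continuous.pow 2).mul (hXi i).continuous).mul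
      (continuous_pd hβ)).integrable_of_hasCompactSupport ((hasCompactSupport_pd hc).mul_left)
  have i2 : Integrable (fun x => β x * (gs F x + (V x + ε) * F x ^ 2)) :=
    (hβ.continuous.mul ((cont_gs hF).add ((hV.add continuous_const).mul
      (hF.continuous.pow 2)))).integrable_of_hasCompactSupport hc.mul_right
  have i3 : Integrable (fun x => ∑ i, pd i (fun x => β x * (F x ^ 2 * X x i)) x) :=
    integrable_finset_sum _ fun i _ => (continuous_pd (hY i)).integrable_of_hasCompactSupport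
      (hasCompactSupport_pd hc.mul_right)
  have h7 := integral_mono i3 (i1.add i2) e2
  rw [h] at h7
  simp only [Pi.add_apply] at h7
  rw [integral_add i1 i2] at h7
  linarith

/-- `f = ψ/√2`; `Δf = V f + √2 D`. -/
noncomputable def fn (u : (Fin n → ℝ) → ℝ) (x : Fin n → ℝ) : ℝ := psi u x / Real.sqrt 2

lemma fn_c2 (hu : Sol u) : ContDiff ℝ 2 (fn u) := hu.psi_contDiff.div_const _

lemma lap_fn (hu : Sol u) (x : Fin n → ℝ) :
    lap (fn u) x = (3 * u x ^ 2 - 1) * fn u x + Real.sqrt 2 * defi u x := by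
  have h1 : fn u = fun y => (1 / Real.sqrt 2) * psi u y := by
    funext y; unfold fn; ring
  have h2 : lap (psi u) x = (3 * u x ^ 2 - 1) * psi u x + 2 * defi u x := hu.lap_psi x
  have h3 := lap_smul (1 / Real.sqrt 2) hu.psi_contDiff x
  rw [← h1, h2] at h3
  rw [h3]
  unfold fn
  have hs : Real.sqrt 2 ^ 2 = 2 := Real.sq_sqrt (by norm_num)
  have hs0 : Real.sqrt 2 ≠ 0 := by positivity
  field_simp
  rw [hs]

lemma pd_G2f (hG : Differentiable ℝ G) (hf : Differentiable ℝ F) (x : Fin n → ℝ) (i : Fin n) :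
    pd i (fun y => G y * F y) x = G x * pd i F x + F x * pd i G x :=
  pd_mul (hG x) (hf x)

/-- pointwise identity. -/
theorem ball_pt (hu : Sol u) (hG : ContDiff ℝ 1 G) (x : Fin n → ℝ) :
    gs (fun y => G y * fn u y) x + (3 * u x ^ 2 - 1) * (G x * fn u x) ^ 2
      = fn u x ^ 2 * gs G x + ∑ i, pd i (fun y => (G y ^ 2 * fn u y) * pd i (fn u) y) x
        - Real.sqrt 2 * (G x ^ 2 * (fn u x * defi u x)) := by
  have hf := fn_c2 hu
  have hfd : Differentiable ℝ (fn u) := hf.differentiable (by norm_num)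
  have hGd := hG.differentiable (by norm_num)
  have hpd : ∀ i, Differentiable ℝ (pd i (fn u)) := fun i =>
    (contDiff_pd_one hf).differentiable (by norm_num)
  have e1 : ∀ i, pd i (fun y => (G y ^ 2 * fn u y) * pd i (fn u) y) x
      = (G x ^ 2 * fn u x) * pd i (pd i (fn u)) x
        + pd i (fn u) x * (G x ^ 2 * pd i (fn u) x + fn u x * (2 * G x * pd i G x)) := by
    intro i
    rw [pd_mul (f := fun y => G y ^ 2 * fn u y) (by fun_prop) (hpd i x),
      pd_mul (f := fun y => G y ^ 2) (by fun_prop) (hfd x), pd_sq (hGd x)]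
  simp_rw [e1]
  rw [Finset.sum_add_distrib, ← Finset.mul_sum]
  have e2 : ∑ i, pd i (pd i (fn u)) x = (3 * u x ^ 2 - 1) * fn u x + Real.sqrt 2 * defi u x :=
    lap_fn hu x
  rw [e2]
  have e3 : gs (fun y => G y * fn u y) x
      = fn u x ^ 2 * gs G x
        + ∑ i, pd i (fn u) x * (G x ^ 2 * pd i (fn u) x + fn u x * (2 * G x * pd i G x)) := by
    unfold gs
    rw [Finset.mul_sum, ← Finset.sum_add_distrib]
    refine Finset.sum_congr rfl fun i _ => ?_
    rw [pd_mul (hGd x) (hfd x)]
    ring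
  rw [e3]
  ring

/-- integrated identity. -/
theorem ball_id (hu : Sol u) (hβ : ContDiff ℝ 2 β) (hc : HasCompactSupport β)
    (hG : ContDiff ℝ 1 G) :
    ∫ x, β x * (gs (fun y => G y * fn u y) x + (3 * u x ^ 2 - 1) * (G x * fn u x) ^ 2)
      = (∫ x, β x * (fn u x ^ 2 * gs G x)) + (1 / 2) * (∫ x, (G x * fn u x) ^ 2 * lap β x)
        + (∫ x, fn u x ^ 2 * (G x * gg G β x))
        - Real.sqrt 2 * ∫ x, β x * (G x ^ 2 * (fn u x * defi u x)) := by
  have hf := fn_c2 hu
  have hf1 : ContDiff ℝ 1 (fn u) := hf.of_le (by norm_num)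
  have hfd : Differentiable ℝ (fn u) := hf.differentiable (by norm_num)
  have hGd := hG.differentiable (by norm_num)
  have hβ1 : ContDiff ℝ 1 β := hβ.of_le (by norm_num)
  have hY : ∀ i, ContDiff ℝ 1 (fun y => (G y ^ 2 * fn u y) * pd i (fn u) y) := fun i =>
    ((hG.pow 2).mul hf1).mul (contDiff_pd_one hf)
  have k1 := int_div (X := fun i y => (G y ^ 2 * fn u y) * pd i (fn u) y) hβ1 hc hY
  -- `∫ G² f² Δβ`
  have hg2 : ContDiff ℝ 1 (fun x => (G x * fn u x) ^ 2) := (hG.mul hf1).pow 2
  have k3 : ∫ x, ∑ i, pd i (fun y => (G y * fn u y) ^ 2 * pd i β y) x = 0 :=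
    int_div_zero (X := fun i y => (G y * fn u y) ^ 2 * pd i β y)
      (fun i => hg2.mul (contDiff_pd_one hβ)) (fun i => (hasCompactSupport_pd hc).mul_left)
  have e3 : ∀ x, ∑ i, pd i (fun y => (G y * fn u y) ^ 2 * pd i β y) x
      = (G x * fn u x) ^ 2 * lap β x + 2 * (fn u x ^ 2 * (G x * gg G β x))
        + 2 * ∑ i, pd i β x * ((G x ^ 2 * fn u x) * pd i (fn u) x) := by
    intro x
    have : ∀ i, pd i (fun y => (G y * fn u y) ^ 2 * pd i β y) x
        = (G x * fn u x) ^ 2 * pd i (pd i β) x + 2 * (fn u x ^ 2 * (G x * (pd i G x * pd i β x)))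
          + 2 * (pd i β x * ((G x ^ 2 * fn u x) * pd i (fn u) x)) := by
      intro i
      rw [pd_mul (f := fun y => (G y * fn u y) ^ 2) (by fun_prop)
        ((contDiff_pd_one hβ).differentiable (by norm_num) x),
        pd_sq (f := fun y => G y * fn u y) (by fun_prop), pd_mul (hGd x) (hfd x)]
      ring
    simp_rw [this]
    rw [Finset.sum_add_distrib, Finset.sum_add_distrib]
    unfold lap gg
    simp only [Finset.mul_sum]
  have cs : ∀ {h : (Fin n → ℝ) → ℝ}, Continuous h → Integrable (fun x => β x * h x) := fun hh =>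
    (hβ.continuous.mul hh).integrable_of_hasCompactSupport hc.mul_right
  have csp : ∀ {h : (Fin n → ℝ) → ℝ} (i : Fin n), Continuous h →
      Integrable (fun x => pd i β x * h x) := fun i hh =>
    ((continuous_pd hβ1).mul hh).integrable_of_hasCompactSupport (hasCompactSupport_pd hc).mul_right
  have j1 : Integrable (fun x => (G x * fn u x) ^ 2 * lap β x) := by
    have : (fun x => (G x * fn u x) ^ 2 * lap β x)
        = fun x => ∑ i, (G x * fn u x) ^ 2 * pd i (pd i β) x := by
      funext x; unfold lap; rw [Finset.mul_sum]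
    rw [this]
    exact integrable_finset_sum _ fun i _ => (hg2.continuous.mul
      (continuous_pd (contDiff_pd_one hβ))).integrable_of_hasCompactSupport
      (hasCompactSupport_pd (hasCompactSupport_pd hc)).mul_left
  have j2 : Integrable (fun x => fn u x ^ 2 * (G x * gg G β x)) := by
    have : (fun x => fn u x ^ 2 * (G x * gg G β x))
        = fun x => ∑ i, pd i β x * (fn u x ^ 2 * (G x * pd i G x)) := by
      funext x; unfold gg; rw [Finset.mul_sum, Finset.mul_sum]
      exact Finset.sum_congr rfl fun i _ => by ring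
    rw [this]
    exact integrable_finset_sum _ fun i _ => csp i
      ((hf.continuous.pow 2).mul (hG.continuous.mul (continuous_pd hG)))
  have j3 : Integrable (fun x => ∑ i, pd i β x * ((G x ^ 2 * fn u x) * pd i (fn u) x)) :=
    integrable_finset_sum _ fun i _ => csp i
      (((hG.continuous.pow 2).mul hf.continuous).mul (continuous_pd hf1))
  simp_rw [e3] at k3
  have j12 : Integrable (fun x => (G x * fn u x) ^ 2 * lap β x
      + 2 * (fn u x ^ 2 * (G x * gg G β x))) := j1.add (j2.const_mul 2)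
  rw [integral_add j12 (j3.const_mul 2), integral_add j1 (j2.const_mul 2),
    integral_const_mul, integral_const_mul] at k3
  have j4 : Integrable (fun x => β x * (fn u x ^ 2 * gs G x)) :=
    cs ((hf.continuous.pow 2).mul (cont_gs hG))
  have j5 : Integrable (fun x => β x
      * ∑ i, pd i (fun y => (G y ^ 2 * fn u y) * pd i (fn u) y) x) :=
    cs (continuous_finsetSum _ fun i _ => continuous_pd (hY i))
  have j6 : Integrable (fun x => β x * (G x ^ 2 * (fn u x * defi u x))) :=
    cs ((hG.continuous.pow 2).mul (hf.continuous.mul hu.defi_continuous))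
  have e4 : ∀ x, β x * (gs (fun y => G y * fn u y) x + (3 * u x ^ 2 - 1) * (G x * fn u x) ^ 2)
      = (β x * (fn u x ^ 2 * gs G x)
        + β x * ∑ i, pd i (fun y => (G y ^ 2 * fn u y) * pd i (fn u) y) x)
        - Real.sqrt 2 * (β x * (G x ^ 2 * (fn u x * defi u x))) := by
    intro x
    rw [ball_pt hu hG x]
    ring
  simp_rw [e4]
  have j45 : Integrable (fun x => β x * (fn u x ^ 2 * gs G x)
      + β x * ∑ i, pd i (fun y => (G y ^ 2 * fn u y) * pd i (fn u) y) x) := j4.add j5
  rw [integral_sub j45 (j6.const_mul _), integral_add j4 j5, integral_const_mul, k1]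
  linarith

/-- **LI3**, general dimension. -/
theorem ball_final (hu : Sol u) (hβ : ContDiff ℝ 2 β) (hc : HasCompactSupport β)
    (h0 : ∀ x, 0 ≤ β x) (hG : ContDiff ℝ 1 G) {X : (Fin n → ℝ) → Fin n → ℝ}
    (hX : ContDiff ℝ 1 X)
    (hle : ∀ x, β x ≠ 0 → ∑ i, pd i (fun y => X y i) x + ∑ i, X x i ^ 2
      ≤ (3 * u x ^ 2 - 1) + ε) :
    Real.sqrt 2 * (∫ x, β x * (G x ^ 2 * (fn u x * defi u x)))
      - (∫ x, (G x * fn u x) ^ 2 * ∑ i, X x i * pd i β x)
      ≤ (∫ x, β x * (fn u x ^ 2 * gs G x)) + (1 / 2) * (∫ x, (G x * fn u x) ^ 2 * lap β x)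
        + (∫ x, fn u x ^ 2 * (G x * gg G β x)) + ε * ∫ x, β x * (G x * fn u x) ^ 2 := by
  have hf := fn_c2 hu
  have hf1 : ContDiff ℝ 1 (fn u) := hf.of_le (by norm_num)
  have hV : Continuous (fun x => 3 * u x ^ 2 - 1) :=
    (continuous_const.mul (hu.c2.continuous.pow 2)).sub continuous_const
  have h1 := ball_ineq (F := fun x => G x * fn u x) (V := fun x => 3 * u x ^ 2 - 1)
    (hβ.of_le (by norm_num)) hc h0 (hG.mul hf1) hV hX hle
  have h2 := ball_id hu hβ hc hG
  have i1 : Integrable (fun x => β x * (gs (fun y => G y * fn u y) x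
      + (3 * u x ^ 2 - 1) * (G x * fn u x) ^ 2)) :=
    (hβ.continuous.mul ((cont_gs (hG.mul hf1)).add (hV.mul
      ((hG.continuous.mul hf.continuous).pow 2)))).integrable_of_hasCompactSupport hc.mul_right
  have i2 : Integrable (fun x => β x * (G x * fn u x) ^ 2) :=
    (hβ.continuous.mul ((hG.continuous.mul hf.continuous).pow 2)).integrable_of_hasCompactSupport
      hc.mul_right
  have e : ∀ x, β x * (gs (fun y => G y * fn u y) x + (3 * u x ^ 2 - 1 + ε) * (G x * fn u x) ^ 2)
      = β x * (gs (fun y => G y * fn u y) x + (3 * u x ^ 2 - 1) * (G x * fn u x) ^ 2)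
        + ε * (β x * (G x * fn u x) ^ 2) := by intro x; ring
  simp_rw [e] at h1
  rw [integral_add i1 (i2.const_mul ε), integral_const_mul, h2] at h1
  linarith

end Vale.Agent.P134.H586
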