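import Vale.Agent.P134.LI.Stm2
import Vale.Agent.P134.H586.Chi

set_option linter.all false

/-! P134, R3: `StLI3`, `StCut`, `StCutR`. -/

namespace Vale.Agent.P134.H586

open Vale.Agent.P134 Vale.Agent.P134.SM Vale.Agent.P134.LI MeasureTheory Filter Topology

theorem cut : StCut := by
  obtain ⟨C, hC, h⟩ := exists_chiB_bound
  refine ⟨C, by linarith, fun B W hW => ⟨chiB B W, ?_, ?_, ?_, ?_, ?_, ?_⟩⟩
  · exact_mod_cast chiB_cd B hW (k := 2)
  · exact fun x => ⟨chiB_nonneg B hW x, chiB_le_one B hW x⟩
  · exact fun x hx => chiB_zero' B hW hx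
  · exact fun x hx => chiB_one' B hW hx
  · exact fun x i => (h B W hW x).2.2.1 i
  · exact fun x i j => (h B W hW x).2.2.2.1 j i

theorem cutR : StCutR := by
  obtain ⟨C, hC, h⟩ := exists_rc_bound 3
  refine ⟨C, by linarith, fun R hR => ⟨rc 0 R, ?_, ?_, ?_, ?_, ?_, ?_⟩⟩
  · exact_mod_cast rc_contDiff (0:R3) R (k := 2)
  · exact fun x => ⟨rc_nonneg _ _ _, rc_le_one _ _ _⟩
  · intro x hx
    apply rc_one hR
    rw [mem_eb_sqrt hR.le, ← eno_eq_dsq, sub_zero]
    exact hx
  · intro x hx
    unfold rc
    apply chi_zero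
    rw [le_div_iff₀ (by positivity)]
    have h1 : dsq 0 x = eno x ^ 2 := by
      rw [eno_sq, dsq_eq_esq, sub_zero]
    rw [h1]
    have := eno_nonneg x
    nlinarith
  · exact fun x i => (h 0 R x hR).1 i
  · exact fun x i j => (h 0 R x hR).2.2.1 j i

theorem stLI3 : StLI3 := by
  intro V hV X R ε hX hle β hβ h0 a ha hc hbox
  have hXi : ∀ i, ContDiff ℝ 1 (fun y => X y i) := fun i => contDiff_pi.mp hX i
  have hd := hβ.differentiable (by norm_num)
  have hFd := ha.differentiable (by norm_num)
  have hXd : ∀ i, Differentiable ℝ (fun y => X y i) := fun i => (hXi i).differentiable (by norm_num)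
  have hY : ∀ i, ContDiff ℝ 1 (fun x => β x * (a x ^ 2 * X x i)) := fun i =>
    hβ.mul ((ha.pow 2).mul (hXi i))
  have hc2 : HasCompactSupport (fun x => a x ^ 2) := by
    have : (fun x => a x ^ 2) = fun x => a x * a x := by funext x; ring
    rw [this]; exact hc.mul_right
  have hYc : ∀ i, HasCompactSupport (fun x => β x * (a x ^ 2 * X x i)) := fun i =>
    HasCompactSupport.mul_left hc2.mul_right
  have h := int_div_zero (X := fun i x => β x * (a x ^ 2 * X x i)) hY hYc
  have e : ∀ x i, pd i (fun x => β x * (a x ^ 2 * X x i)) x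
      = a x ^ 2 * (X x i * pd i β x)
        + β x * (2 * a x * (pd i a x * X x i) + a x ^ 2 * pd i (fun y => X y i) x) := by
    intro x i
    rw [pd_mul (g := fun x => a x ^ 2 * X x i) (hd x) (by fun_prop),
      pd_mul (f := fun x => a x ^ 2) (g := fun x => X x i) (by fun_prop) (hXd i x), pd_sq (hFd x)]
    ring
  have e2 : ∀ x, ∑ i, pd i (fun x => β x * (a x ^ 2 * X x i)) x
      ≤ a x ^ 2 * (∑ i, X x i * pd i β x) + β x * (gs a x + (V x + ε) * a x ^ 2) := by
    intro x
    by_cases hb : x ∈ tsupport a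
    · simp_rw [e]
      rw [Finset.sum_add_distrib, ← Finset.mul_sum, ← Finset.mul_sum, Finset.sum_add_distrib,
        ← Finset.mul_sum, ← Finset.mul_sum]
      have h1 : ∑ i, pd i (fun y => X y i) x + ∑ i, X x i ^ 2 ≤ V x + ε := by
        have := hle x (hbox x hb)
        unfold dvg dot at this
        simp_rw [← pow_two] at this
        exact this
      have h2 : 2 * a x * ∑ i, pd i a x * X x i ≤ gs a x + a x ^ 2 * ∑ i, X x i ^ 2 := by
        have h3 : 0 ≤ ∑ i, (pd i a x - a x * X x i) ^ 2 := Finset.sum_nonneg fun _ _ => sq_nonneg _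
        have h4 : ∑ i, (pd i a x - a x * X x i) ^ 2
            = gs a x - 2 * a x * ∑ i, pd i a x * X x i + a x ^ 2 * ∑ i, X x i ^ 2 := by
          unfold gs
          rw [Finset.mul_sum, Finset.mul_sum, ← Finset.sum_sub_distrib, ← Finset.sum_add_distrib]
          exact Finset.sum_congr rfl fun i _ => by ring
        linarith
      have h5 : a x ^ 2 * (∑ i, pd i (fun y => X y i) x + ∑ i, X x i ^ 2)
          ≤ a x ^ 2 * (V x + ε) := mul_le_mul_of_nonneg_left h1 (sq_nonneg _)
      have h6 := mul_le_mul_of_nonneg_left (show 2 * a x * (∑ i, pd i a x * X x i)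
          + a x ^ 2 * (∑ i, pd i (fun y => X y i) x) ≤ gs a x + (V x + ε) * a x ^ 2 by
        linarith) (h0 x)
      linarith
    · simp_rw [e]
      have a0 : a x = 0 := image_eq_zero_of_notMem_tsupport hb
      have a1 : ∀ i, pd i a x = 0 := fun i => pd_eq_zero_of_notMem_tsupport hb
      simp [a0, a1, gs]
  have i1 : Integrable (fun x => a x ^ 2 * ∑ i, X x i * pd i β x) := by
    have hcont : Continuous (fun x => ∑ i, X x i * pd i β x) :=
      continuous_finsetSum _ fun i _ => (hXi i).continuous.mul (continuous_pd hβ)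
    exact ((ha.continuous.pow 2).mul hcont).integrable_of_hasCompactSupport hc2.mul_right
  have hcg : HasCompactSupport (fun x => gs a x + (V x + ε) * a x ^ 2) := by
    have h7 : HasCompactSupport (fun x => gs a x + (V x + ε) * a x ^ 2) := by
      refine HasCompactSupport.intro hc ?_
      intro x hb
      have a0 : a x = 0 := image_eq_zero_of_notMem_tsupport hb
      have a1 : ∀ i, pd i a x = 0 := fun i => pd_eq_zero_of_notMem_tsupport hb
      simp [a0, a1, gs]
    exact h7
  have i2 : Integrable (fun x => β x * (gs a x + (V x + ε) * a x ^ 2)) :=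
    (hβ.continuous.mul ((cont_gs ha).add ((hV.add continuous_const).mul
      (ha.continuous.pow 2)))).integrable_of_hasCompactSupport hcg.mul_left
  have i3 : Integrable (fun x => ∑ i, pd i (fun x => β x * (a x ^ 2 * X x i)) x) :=
    integrable_finset_sum _ fun i _ => (continuous_pd (hY i)).integrable_of_hasCompactSupport
      (hasCompactSupport_pd (hYc i))
  have h7 := integral_mono i3 (i1.add i2) e2
  rw [h] at h7
  simp only [Pi.add_apply] at h7
  rw [integral_add i1 i2] at h7
  linarith

end Vale.Agent.P134.H586
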